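import Vale.Agent.P229.Calc2

/-!
# P229 seat B: energy estimate for a linear elliptic equation, and the `L¹` bound of the sup norm
-/

namespace Vale.Agent.P229.Sea

open MeasureTheory Set
open scoped ContDiff

theorem sub_young {lam a v g : ℝ} (hlam : 0 < lam) :
    a * |v| * |g| ≤ lam / 4 * g ^ 2 + a ^ 2 / lam * v ^ 2 := by
  have h := sq_nonneg (lam * |g| - 2 * a * |v|)
  have e : lam / 4 * g ^ 2 + a ^ 2 / lam * v ^ 2
      = (lam ^ 2 * g ^ 2 + 4 * a ^ 2 * v ^ 2) / (4 * lam) := by field_simp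
  rw [e, le_div_iff₀ (by positivity)]
  rw [sub_sq, mul_pow, mul_pow, sq_abs, sq_abs] at h
  linarith

/-- Cut-off energy identity, pointwise. -/
theorem energy_pointwise {chi u B11 B12 B22 : P2 → ℝ} (hchi : ContDiff ℝ 1 chi)
    (hu : ContDiff ℝ 2 u) (h11 : ContDiff ℝ 1 B11) (h12 : ContDiff ℝ 1 B12)
    (h22 : ContDiff ℝ 1 B22) (x : P2) :
    chi x ^ 2 * (B11 x * d1 u x ^ 2 + 2 * B12 x * d1 u x * d2 u x + B22 x * d2 u x ^ 2)
      = (d1 (fun y => chi y * chi y * u y * (B11 y * d1 u y + B12 y * d2 u y)) x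
          + d2 (fun y => chi y * chi y * u y * (B12 y * d1 u y + B22 y * d2 u y)) x)
        - chi x ^ 2 * u x
            * (B11 x * d1 (d1 u) x + 2 * B12 x * d1 (d2 u) x + B22 x * d2 (d2 u) x)
        - chi x * u x * (chi x * d1 B11 x + chi x * d2 B12 x
            + 2 * (d1 chi x * B11 x + d2 chi x * B12 x)) * d1 u x
        - chi x * u x * (chi x * d1 B12 x + chi x * d2 B22 x
            + 2 * (d1 chi x * B12 x + d2 chi x * B22 x)) * d2 u x := by
  have hc := HD.of_diff (hchi.differentiable (by norm_num) x)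
  have hu0 := HD.of_diff (hu.differentiable (by norm_num) x)
  have hp := HD.of_diff (((cd1_smooth (m := 1) hu (by norm_num)).differentiable (by norm_num)) x)
  have hq := HD.of_diff (((cd2_smooth (m := 1) hu (by norm_num)).differentiable (by norm_num)) x)
  rw [d2_d1 hu x] at hp
  have k11 := HD.of_diff (h11.differentiable (by norm_num) x)
  have k12 := HD.of_diff (h12.differentiable (by norm_num) x)
  have k22 := HD.of_diff (h22.differentiable (by norm_num) x)
  have J1 := ((hc.mul hc).mul hu0).mul ((k11.mul hp).add (k12.mul hq))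
  have J2 := ((hc.mul hc).mul hu0).mul ((k12.mul hp).add (k22.mul hq))
  rw [J1.d1, J2.d2]
  ring

/-- Energy estimate with cut-off. -/
theorem linear_energy {chi : P2 → ℝ} (hchi : ContDiff ℝ 1 chi) (hc : HasCompactSupport chi)
    {K lam : ℝ} (hlam : 0 < lam) :
    ∃ C : ℝ, 0 ≤ C ∧ ∀ B11 B12 B22 u G : P2 → ℝ, ContDiff ℝ 1 B11 → ContDiff ℝ 1 B12 →
      ContDiff ℝ 1 B22 → ContDiff ℝ 2 u → Continuous G →
      (∀ x ∈ tsupport chi, |B11 x| ≤ K ∧ |B12 x| ≤ K ∧ |B22 x| ≤ K ∧ |d1 B11 x| ≤ K ∧
        |d2 B12 x| ≤ K ∧ |d1 B12 x| ≤ K ∧ |d2 B22 x| ≤ K) →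
      (∀ x ∈ tsupport chi, ∀ a b : ℝ,
        lam * (a ^ 2 + b ^ 2) ≤ B11 x * a ^ 2 + 2 * B12 x * a * b + B22 x * b ^ 2) →
      (∀ x ∈ tsupport chi,
        |B11 x * d1 (d1 u) x + 2 * B12 x * d1 (d2 u) x + B22 x * d2 (d2 u) x| ≤ G x) →
      ∫ x, chi x ^ 2 * (d1 u x ^ 2 + d2 u x ^ 2)
        ≤ C * (∫ x in tsupport chi, u x ^ 2) + C * ∫ x, chi x ^ 2 * |u x| * G x := by
  obtain ⟨N0, hN0⟩ := hc.exists_bound_of_continuousOn (f := fun x =>
      |chi x| + |d1 chi x| + |d2 chi x|)
    (((hchi.continuous.abs.add (cd1_smooth (m := 0) hchi (by norm_num)).continuous.abs).add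
      (cd2_smooth (m := 0) hchi (by norm_num)).continuous.abs).continuousOn)
  set N := max N0 0 with hN
  set A := 6 * K * N with hA
  refine ⟨2 / lam + 4 * A ^ 2 / lam ^ 2, by positivity, ?_⟩
  intro B11 B12 B22 u G h11 h12 h22 hu hG hB hpos hGb
  set F1 := fun y => chi y * chi y * u y * (B11 y * d1 u y + B12 y * d2 u y) with hF1
  set F2 := fun y => chi y * chi y * u y * (B12 y * d1 u y + B22 y * d2 u y) with hF2
  have hp1 : ContDiff ℝ 1 (d1 u) := cd1_smooth hu (by norm_num)
  have hq1 : ContDiff ℝ 1 (d2 u) := cd2_smooth hu (by norm_num)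
  have hu1 : ContDiff ℝ 1 u := hu.of_le (by norm_num)
  have F1s : ContDiff ℝ 1 F1 :=
    ((hchi.mul hchi).mul hu1).mul ((h11.mul hp1).add (h12.mul hq1))
  have F2s : ContDiff ℝ 1 F2 :=
    ((hchi.mul hchi).mul hu1).mul ((h12.mul hp1).add (h22.mul hq1))
  have F1c : HasCompactSupport F1 := HasCompactSupport.intro hc fun x hx => by
    simp [hF1, image_eq_zero_of_notMem_tsupport hx]
  have F2c : HasCompactSupport F2 := HasCompactSupport.intro hc fun x hx => by
    simp [hF2, image_eq_zero_of_notMem_tsupport hx]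
  have idiv : Integrable (fun x => d1 F1 x + d2 F2 x) :=
    ((cd1_smooth (m := 0) F1s (by norm_num)).continuous.integrable_of_hasCompactSupport
      (F1c.fderiv_apply ℝ _)).add
    ((cd2_smooth (m := 0) F2s (by norm_num)).continuous.integrable_of_hasCompactSupport
      (F2c.fderiv_apply ℝ _))
  have iL : Integrable (fun x => chi x ^ 2 * (d1 u x ^ 2 + d2 u x ^ 2)) :=
    ((hchi.continuous.pow 2).mul ((hp1.continuous.pow 2).add
      (hq1.continuous.pow 2))).integrable_of_hasCompactSupport
      (HasCompactSupport.intro hc fun x hx => by simp [image_eq_zero_of_notMem_tsupport hx])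
  have iG : Integrable (fun x => chi x ^ 2 * |u x| * G x) :=
    (((hchi.continuous.pow 2).mul hu.continuous.abs).mul hG).integrable_of_hasCompactSupport
      (HasCompactSupport.intro hc fun x hx => by simp [image_eq_zero_of_notMem_tsupport hx])
  have iU : Integrable ((tsupport chi).indicator fun x => u x ^ 2) :=
    (integrable_indicator_iff hc.measurableSet).mpr
      ((hu.continuous.pow 2).continuousOn.integrableOn_compact hc)
  have hpt : ∀ x, lam / 2 * (chi x ^ 2 * (d1 u x ^ 2 + d2 u x ^ 2))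
      ≤ (d1 F1 x + d2 F2 x) + (chi x ^ 2 * |u x| * G x)
        + 2 * (A ^ 2 / lam) * (tsupport chi).indicator (fun x => u x ^ 2) x := by
    intro x
    have id := energy_pointwise hchi hu h11 h12 h22 x
    by_cases hx : x ∈ tsupport chi
    · rw [indicator_of_mem hx]
      obtain ⟨b11, b12, b22, e1, e2, e3, e4⟩ := hB x hx
      have hb := le_trans (le_abs_self _) (le_trans (hN0 x hx) (le_max_left N0 0))
      have n0 : |chi x| ≤ N := by linarith [abs_nonneg (d1 chi x), abs_nonneg (d2 chi x)]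
      have n1 : |d1 chi x| ≤ N := by linarith [abs_nonneg (chi x), abs_nonneg (d2 chi x)]
      have n2 : |d2 chi x| ≤ N := by linarith [abs_nonneg (chi x), abs_nonneg (d1 chi x)]
      have hN0' : 0 ≤ N := le_max_right _ _
      have key : ∀ c0 c1 k0 k1 k2 k3 : ℝ, |c0| ≤ N → |c1| ≤ N → |k0| ≤ K → |k1| ≤ K →
          |k2| ≤ K → |k3| ≤ K →
          |chi x * k0 + chi x * k1 + 2 * (c0 * k2 + c1 * k3)| ≤ A := by
        intro c0 c1 k0 k1 k2 k3 h0 h1 g0 g1 g2 g3
        have m : ∀ a b : ℝ, |a| ≤ N → |b| ≤ K → |a * b| ≤ N * K := fun a b ha hb => by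
          rw [abs_mul]; exact mul_le_mul ha hb (abs_nonneg _) hN0'
        have := m _ _ n0 g0
        have := m _ _ n0 g1
        have := m _ _ h0 g2
        have := m _ _ h1 g3
        rw [abs_le] at *
        constructor <;> linarith
      have q1 := key _ _ _ _ _ _ n1 n2 e1 e2 b11 b12
      have q2 := key _ _ _ _ _ _ n1 n2 e3 e4 b12 b22
      have y1 := sub_young (a := A) (v := u x) (g := chi x * d1 u x) hlam
      have y2 := sub_young (a := A) (v := u x) (g := chi x * d2 u x) hlam
      have r1 : |chi x * u x * (chi x * d1 B11 x + chi x * d2 B12 x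
            + 2 * (d1 chi x * B11 x + d2 chi x * B12 x)) * d1 u x|
          ≤ A * |u x| * |chi x * d1 u x| := by
        have h := mul_le_mul_of_nonneg_right q1
          (mul_nonneg (abs_nonneg (u x)) (abs_nonneg (chi x * d1 u x)))
        simp only [abs_mul] at h ⊢
        linarith
      have r2 : |chi x * u x * (chi x * d1 B12 x + chi x * d2 B22 x
            + 2 * (d1 chi x * B12 x + d2 chi x * B22 x)) * d2 u x|
          ≤ A * |u x| * |chi x * d2 u x| := by
        have h := mul_le_mul_of_nonneg_right q2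
          (mul_nonneg (abs_nonneg (u x)) (abs_nonneg (chi x * d2 u x)))
        simp only [abs_mul] at h ⊢
        linarith
      have r3 : |chi x ^ 2 * u x
          * (B11 x * d1 (d1 u) x + 2 * B12 x * d1 (d2 u) x + B22 x * d2 (d2 u) x)|
          ≤ chi x ^ 2 * |u x| * G x := by
        rw [abs_mul, abs_mul, abs_of_nonneg (sq_nonneg (chi x))]
        exact mul_le_mul_of_nonneg_left (hGb x hx) (by positivity)
      have hq := mul_le_mul_of_nonneg_left (hpos x hx (d1 u x) (d2 u x)) (sq_nonneg (chi x))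
      rw [id] at hq
      have e : lam / 4 * (chi x * d1 u x) ^ 2 + lam / 4 * (chi x * d2 u x) ^ 2
          = lam / 4 * (chi x ^ 2 * (d1 u x ^ 2 + d2 u x ^ 2)) := by ring
      rw [abs_le] at r1 r2 r3
      have : 0 ≤ lam / 4 * (chi x ^ 2 * (d1 u x ^ 2 + d2 u x ^ 2)) := by positivity
      linarith
    · rw [indicator_of_notMem hx]
      have z := image_eq_zero_of_notMem_tsupport hx
      simp only [z] at id
      simp only [z]
      linarith
  have iR : Integrable (fun x => (d1 F1 x + d2 F2 x) + (chi x ^ 2 * |u x| * G x)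
      + 2 * (A ^ 2 / lam) * (tsupport chi).indicator (fun x => u x ^ 2) x) :=
    (idiv.add iG).add (iU.const_mul _)
  have h := integral_mono (iL.const_mul (lam / 2)) iR hpt
  rw [integral_add (f := fun x => d1 F1 x + d2 F2 x + chi x ^ 2 * |u x| * G x)
      (idiv.add iG) (iU.const_mul _),
    integral_add (f := fun x => d1 F1 x + d2 F2 x) idiv iG,
    integral_div_eq_zero F1s F2s F1c F2c, zero_add, integral_const_mul, integral_const_mul,
    integral_indicator hc.measurableSet] at h
  set L := ∫ x, chi x ^ 2 * (d1 u x ^ 2 + d2 u x ^ 2)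
  set U := ∫ x in tsupport chi, u x ^ 2
  set Q := ∫ x, chi x ^ 2 * |u x| * G x
  have U0 : 0 ≤ U := setIntegral_nonneg hc.measurableSet fun x _ => sq_nonneg _
  have Q0 : 0 ≤ Q := integral_nonneg fun x => by
    by_cases hx : x ∈ tsupport chi
    · exact mul_nonneg (by positivity) (le_trans (abs_nonneg _) (hGb x hx))
    · simp [image_eq_zero_of_notMem_tsupport hx]
  have h2 := mul_le_mul_of_nonneg_left h (show 0 ≤ 2 / lam by positivity)
  have e1 : 2 / lam * (lam / 2 * L) = L := by field_simp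
  have e2 : 2 / lam * (Q + 2 * (A ^ 2 / lam) * U)
      = 2 / lam * Q + 4 * A ^ 2 / lam ^ 2 * U := by field_simp; ring
  rw [e1, e2] at h2
  have : 0 ≤ 2 / lam * U := by positivity
  have : 0 ≤ 4 * A ^ 2 / lam ^ 2 * Q := by positivity
  linarith

/-- Sup norm by the `L¹` norm of the mixed second derivative. -/
theorem sup_le_L1 {v : P2 → ℝ} (hv : ContDiff ℝ 2 v) (hc : HasCompactSupport v) (x : P2) :
    |v x| ≤ ∫ y, |d1 (d2 v) y| := by
  have hq : ContDiff ℝ 1 (d2 v) := cd2_smooth hv (by norm_num)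
  have hqc : HasCompactSupport (d2 v) := hc.fderiv_apply ℝ _
  have hrc : HasCompactSupport (d1 (d2 v)) := hqc.fderiv_apply ℝ _
  have hr : Continuous (d1 (d2 v)) := (cd1_smooth (m := 0) hq (by norm_num)).continuous
  have ir : Integrable (d1 (d2 v)) := hr.integrable_of_hasCompactSupport hrc
  -- restrictions to lines
  have sec : ∀ {g : P2 → ℝ}, HasCompactSupport g →
      (∀ a : ℝ, HasCompactSupport fun t => g (a, t)) ∧
      (∀ b : ℝ, HasCompactSupport fun s => g (s, b)) := by
    intro g hg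
    constructor
    · intro a
      refine HasCompactSupport.intro (hg.image continuous_snd) fun t ht => ?_
      exact image_eq_zero_of_notMem_tsupport fun h => ht ⟨(a, t), h, rfl⟩
    · intro b
      refine HasCompactSupport.intro (hg.image continuous_fst) fun s hs => ?_
      exact image_eq_zero_of_notMem_tsupport fun h => hs ⟨(s, b), h, rfl⟩
  have dv : ∀ a t, HasDerivAt (fun t => v (a, t)) (d2 v (a, t)) t := fun a t =>
    (hv.differentiable (by norm_num) (a, t)).hasFDerivAt.comp_hasDerivAt t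
      ((hasDerivAt_const t a).prodMk (hasDerivAt_id t))
  have dq : ∀ b s, HasDerivAt (fun s => d2 v (s, b)) (d1 (d2 v) (s, b)) s := by
    intro b s
    have hd : Differentiable ℝ (d2 v) := hq.differentiable (by norm_num)
    have hl : HasDerivAt (fun r : ℝ => (r, b)) ((1 : ℝ), (0 : ℝ)) s :=
      (hasDerivAt_id s).prodMk (hasDerivAt_const s b)
    exact HasFDerivAt.comp_hasDerivAt (f := fun r : ℝ => (r, b)) s (hd (s, b)).hasFDerivAt hl
  have ftc : ∀ {f f' : ℝ → ℝ}, (∀ t, HasDerivAt f (f' t) t) → Continuous f' →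
      HasCompactSupport f → HasCompactSupport f' → ∀ b, |f b| ≤ ∫ t, |f' t| := by
    intro f f' hd hf' hfc hf'c b
    have e : deriv f = f' := funext fun t => (hd t).deriv
    have h1 : ContDiff ℝ 1 f :=
      contDiff_one_iff_deriv.mpr ⟨fun t => (hd t).differentiableAt, by rw [e]; exact hf'⟩
    have := HasCompactSupport.integral_Iic_deriv_eq h1 hfc b
    rw [← this, e]
    refine le_trans abs_integral_le_integral_abs ?_
    exact setIntegral_le_integral (hf'.integrable_of_hasCompactSupport hf'c).abs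
      (Filter.Eventually.of_forall fun t => abs_nonneg _)
  have step1 : |v x| ≤ ∫ t, |d2 v (x.1, t)| :=
    ftc (dv x.1) (hq.continuous.comp (continuous_const.prodMk continuous_id))
      ((sec hc).1 x.1) ((sec hqc).1 x.1) x.2
  have step2 : ∀ t, |d2 v (x.1, t)| ≤ ∫ s, |d1 (d2 v) (s, t)| := fun t =>
    ftc (dq t) (hr.comp (continuous_id.prodMk continuous_const))
      ((sec hqc).2 t) ((sec hrc).2 t) x.1
  have i2 : Integrable (fun t => ∫ s, |d1 (d2 v) (s, t)|) := by
    have h : Integrable (fun z : ℝ × ℝ => |d1 (d2 v) z|) ((volume : Measure ℝ).prod volume) := ir.abs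
    exact h.integral_prod_right
  have i1 : Integrable (fun t => |d2 v (x.1, t)|) :=
    ((hq.continuous.comp (continuous_const.prodMk continuous_id)).integrable_of_hasCompactSupport
      ((sec hqc).1 x.1)).abs
  calc |v x| ≤ ∫ t, |d2 v (x.1, t)| := step1
    _ ≤ ∫ t, ∫ s, |d1 (d2 v) (s, t)| := integral_mono i1 i2 step2
    _ = ∫ y, |d1 (d2 v) y| := by
        have h : Integrable (fun z : ℝ × ℝ => |d1 (d2 v) z|)
            ((volume : Measure ℝ).prod volume) := ir.abs
        exact (integral_prod_symm (fun z : ℝ × ℝ => |d1 (d2 v) z|) h).symm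

end Vale.Agent.P229.Sea
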