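import Vale.Agent.P229.Calc2

/-!
# P229 seat B: iterated partial derivatives and the order calculus

`Ord S m F`: the `i`-th derivative of `F Z` is bounded on `S` by the derivatives of `Z` of order at
most `i + m`, uniformly in `Z`.
-/

namespace Vale.Agent.P229.Sea

open MeasureTheory
open scoped ContDiff

/-- Smooth functions on the plane. -/
abbrev Sm (f : P2 → ℝ) : Prop := ContDiff ℝ (⊤ : ℕ∞) f

/-- A coordinate derivative. -/
noncomputable def dd : Bool → (P2 → ℝ) → P2 → ℝ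
  | false => d1
  | true => d2

/-- An iterated coordinate derivative. -/
noncomputable def dw : List Bool → (P2 → ℝ) → P2 → ℝ
  | [] => fun f => f
  | b :: l => fun f => dd b (dw l f)

variable {f g a : P2 → ℝ} {x : P2} {S : Set P2}

lemma top1 : ((⊤ : ℕ∞) : ℕ∞ω) + 1 ≤ ((⊤ : ℕ∞) : ℕ∞ω) := le_of_eq rfl

lemma nat_le_top (i : ℕ) : (i : ℕ∞ω) ≤ ((⊤ : ℕ∞) : ℕ∞ω) := by exact_mod_cast le_top

lemma sm_dd (hf : Sm f) : ∀ b, Sm (dd b f)
  | false => cd1_smooth hf top1
  | true => cd2_smooth hf top1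

lemma sm_dw (hf : Sm f) : ∀ l, Sm (dw l f)
  | [] => hf
  | b :: l => sm_dd (sm_dw hf l) b

lemma sm_diff (hf : Sm f) (x : P2) : DifferentiableAt ℝ f x := (hf.differentiable (by simp)) x

lemma dd_add (hf : Sm f) (hg : Sm g) : ∀ b, dd b (fun y => f y + g y) = fun y => dd b f y + dd b g y
  | false => funext fun y => ((HD.of_diff (sm_diff hf y)).add (HD.of_diff (sm_diff hg y))).d1
  | true => funext fun y => ((HD.of_diff (sm_diff hf y)).add (HD.of_diff (sm_diff hg y))).d2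

lemma dd_mul (hf : Sm f) (hg : Sm g) :
    ∀ b, dd b (fun y => f y * g y) = fun y => dd b f y * g y + f y * dd b g y
  | false => funext fun y => ((HD.of_diff (sm_diff hf y)).mul (HD.of_diff (sm_diff hg y))).d1
  | true => funext fun y => ((HD.of_diff (sm_diff hf y)).mul (HD.of_diff (sm_diff hg y))).d2

lemma dd_smul (hf : Sm f) (k : ℝ) : ∀ b, dd b (fun y => k * f y) = fun y => k * dd b f y
  | false => funext fun y => ((HD.of_diff (sm_diff hf y)).smul k).d1
  | true => funext fun y => ((HD.of_diff (sm_diff hf y)).smul k).d2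

lemma dd_comm (hf : Sm f) (b b' : Bool) : dd b (dd b' f) = dd b' (dd b f) := by
  have h2 : ContDiff ℝ 2 f := hf.of_le (nat_le_top 2)
  funext y
  cases b <;> cases b'
  · rfl
  · exact (d2_d1 h2 y).symm
  · exact d2_d1 h2 y
  · rfl

lemma dw_add (hf : Sm f) (hg : Sm g) :
    ∀ l, dw l (fun y => f y + g y) = fun y => dw l f y + dw l g y
  | [] => rfl
  | b :: l => by
    show dd b (dw l _) = _
    rw [dw_add hf hg l, dd_add (sm_dw hf l) (sm_dw hg l) b]
    rfl

lemma dw_smul (hf : Sm f) (k : ℝ) : ∀ l, dw l (fun y => k * f y) = fun y => k * dw l f y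
  | [] => rfl
  | b :: l => by
    show dd b (dw l _) = _
    rw [dw_smul hf k l, dd_smul (sm_dw hf l) k b]
    rfl

lemma dw_dd (hf : Sm f) (b : Bool) : ∀ l, dw l (dd b f) = dd b (dw l f)
  | [] => rfl
  | c :: l => by
    show dd c (dw l _) = _
    rw [dw_dd hf b l, dd_comm (sm_dw hf l) c b]
    rfl

lemma dw_append : ∀ (l : List Bool) (b : Bool), dw (l ++ [b]) f = dw l (dd b f)
  | [], _ => rfl
  | c :: l, b => by
    show dd c (dw (l ++ [b]) f) = _
    rw [dw_append l b]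
    rfl

lemma norm_iter_dd (hf : Sm f) (b : Bool) (i : ℕ) :
    ‖iteratedFDeriv ℝ i (dd b f) x‖ ≤ ‖iteratedFDeriv ℝ (i + 1) f x‖ := by
  rw [← norm_iteratedFDeriv_fderiv]
  have h : ContDiffAt ℝ (⊤ : ℕ∞) (fderiv ℝ f) x := (hf.fderiv_right top1).contDiffAt
  have key : ∀ v : P2, ‖v‖ ≤ 1 →
      ‖iteratedFDeriv ℝ i (fun y => fderiv ℝ f y v) x‖ ≤ ‖iteratedFDeriv ℝ i (fderiv ℝ f) x‖ := by
    intro v hv
    refine ((ContinuousLinearMap.apply ℝ ℝ v).norm_iteratedFDeriv_comp_left h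
      (nat_le_top i)).trans ?_
    refine mul_le_of_le_one_left (norm_nonneg _) ?_
    refine (ContinuousLinearMap.opNorm_le_bound _ zero_le_one fun L => ?_)
    simpa using (L.le_opNorm v).trans (mul_le_of_le_one_right (norm_nonneg _) hv)
  cases b
  · exact key (1, 0) (by simp)
  · exact key (0, 1) (by simp)

lemma norm_iter_dw (hf : Sm f) : ∀ (l : List Bool) (i : ℕ),
    ‖iteratedFDeriv ℝ i (dw l f) x‖ ≤ ‖iteratedFDeriv ℝ (i + l.length) f x‖
  | [], i => le_rfl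
  | b :: l, i => by
    refine (norm_iter_dd (sm_dw hf l) b i).trans ((norm_iter_dw hf l (i + 1)).trans (le_of_eq ?_))
    rw [List.length_cons, add_right_comm, add_assoc]

lemma abs_dw_le (hf : Sm f) (l : List Bool) :
    |dw l f x| ≤ ‖iteratedFDeriv ℝ l.length f x‖ := by
  have h := norm_iter_dw (x := x) hf l 0
  rwa [zero_add, norm_iteratedFDeriv_zero, Real.norm_eq_abs] at h

lemma norm_iter_succ_le (hf : Sm f) (i : ℕ) :
    ‖iteratedFDeriv ℝ (i + 1) f x‖ ≤
      ‖iteratedFDeriv ℝ i (dd false f) x‖ + ‖iteratedFDeriv ℝ i (dd true f) x‖ := by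
  rw [← norm_iteratedFDeriv_fderiv]
  set L1 : ℝ →L[ℝ] (P2 →L[ℝ] ℝ) :=
    (1 : ℝ →L[ℝ] ℝ).smulRight (ContinuousLinearMap.fst ℝ ℝ ℝ) with hL1
  set L2 : ℝ →L[ℝ] (P2 →L[ℝ] ℝ) :=
    (1 : ℝ →L[ℝ] ℝ).smulRight (ContinuousLinearMap.snd ℝ ℝ ℝ) with hL2
  have e : fderiv ℝ f = (L1 ∘ dd false f) + (L2 ∘ dd true f) := by
    funext y
    rw [(HD.of_diff (sm_diff hf y)).fderiv]
    simp [L1, L2, dd]
  have h1 : ContDiffAt ℝ (⊤ : ℕ∞) (dd false f) x := (sm_dd hf false).contDiffAt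
  have h2 : ContDiffAt ℝ (⊤ : ℕ∞) (dd true f) x := (sm_dd hf true).contDiffAt
  rw [e, iteratedFDeriv_add_apply ((L1.contDiff.contDiffAt.comp x h1).of_le (nat_le_top i))
    ((L2.contDiff.contDiffAt.comp x h2).of_le (nat_le_top i))]
  refine (norm_add_le _ _).trans (add_le_add ?_ ?_)
  · refine (L1.norm_iteratedFDeriv_comp_left h1 (nat_le_top i)).trans
      (mul_le_of_le_one_left (norm_nonneg _) ?_)
    rw [hL1, ContinuousLinearMap.norm_smulRight_apply]
    exact mul_le_one₀ ContinuousLinearMap.norm_id_le (norm_nonneg _)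
      (ContinuousLinearMap.norm_fst_le ℝ ℝ ℝ)
  · refine (L2.norm_iteratedFDeriv_comp_left h2 (nat_le_top i)).trans
      (mul_le_of_le_one_left (norm_nonneg _) ?_)
    rw [hL2, ContinuousLinearMap.norm_smulRight_apply]
    exact mul_le_one₀ ContinuousLinearMap.norm_id_le (norm_nonneg _)
      (ContinuousLinearMap.norm_snd_le ℝ ℝ ℝ)

/-- One plus the norms of the derivatives up to order `m`. -/
noncomputable def G (m : ℕ) (Z : P2 → ℝ) (x : P2) : ℝ :=
  1 + ∑ i ∈ Finset.range (m + 1), ‖iteratedFDeriv ℝ i Z x‖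

lemma one_le_G (m : ℕ) (Z : P2 → ℝ) (x : P2) : 1 ≤ G m Z x :=
  le_add_of_nonneg_right (Finset.sum_nonneg fun _ _ => norm_nonneg _)

lemma G_nonneg (m : ℕ) (Z : P2 → ℝ) (x : P2) : 0 ≤ G m Z x :=
  zero_le_one.trans (one_le_G m Z x)

lemma G_mono {m m' : ℕ} (h : m ≤ m') (Z : P2 → ℝ) (x : P2) : G m Z x ≤ G m' Z x :=
  add_le_add le_rfl (Finset.sum_le_sum_of_subset_of_nonneg (Finset.range_mono (by omega))
    fun _ _ _ => norm_nonneg _)

lemma iter_le_G {i m : ℕ} (h : i ≤ m) (Z : P2 → ℝ) (x : P2) :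
    ‖iteratedFDeriv ℝ i Z x‖ ≤ G m Z x :=
  (Finset.single_le_sum (f := fun j => ‖iteratedFDeriv ℝ j Z x‖) (fun _ _ => norm_nonneg _)
    (Finset.mem_range.2 (by omega))).trans (le_add_of_nonneg_left zero_le_one)

/-- Functionals of order at most `m` on `S`. -/
def Ord (S : Set P2) (m : ℕ) (F : (P2 → ℝ) → P2 → ℝ) : Prop :=
  (∀ Z, Sm Z → Sm (F Z)) ∧ ∀ i : ℕ, ∃ C : ℝ, 0 ≤ C ∧ ∀ Z, Sm Z → ∀ x ∈ S,
    ‖iteratedFDeriv ℝ i (F Z) x‖ ≤ C * G (i + m) Z x

namespace Ord

variable {m m' : ℕ} {F F' : (P2 → ℝ) → P2 → ℝ}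

lemma self (S : Set P2) : Ord S 0 fun Z => Z :=
  ⟨fun _ h => h, fun i => ⟨1, zero_le_one, fun Z _ x _ => by
    rw [one_mul]; exact iter_le_G le_rfl Z x⟩⟩

lemma deriv (h : Ord S m F) (b : Bool) : Ord S (m + 1) fun Z => dd b (F Z) :=
  ⟨fun Z hZ => sm_dd (h.1 Z hZ) b, fun i => by
    obtain ⟨C, hC, hb⟩ := h.2 (i + 1)
    refine ⟨C, hC, fun Z hZ x hx => (norm_iter_dd (h.1 Z hZ) b i).trans ((hb Z hZ x hx).trans ?_)⟩
    exact mul_le_mul_of_nonneg_left (le_of_eq (by congr 1; omega)) hC⟩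

lemma mono (h : Ord S m F) (hm : m ≤ m') : Ord S m' F :=
  ⟨h.1, fun i => by
    obtain ⟨C, hC, hb⟩ := h.2 i
    exact ⟨C, hC, fun Z hZ x hx => (hb Z hZ x hx).trans
      (mul_le_mul_of_nonneg_left (G_mono (by omega) Z x) hC)⟩⟩

lemma add (h : Ord S m F) (h' : Ord S m F') : Ord S m fun Z y => F Z y + F' Z y :=
  ⟨fun Z hZ => (h.1 Z hZ).add (h'.1 Z hZ), fun i => by
    obtain ⟨C, hC, hb⟩ := h.2 i
    obtain ⟨C', hC', hb'⟩ := h'.2 i
    refine ⟨C + C', add_nonneg hC hC', fun Z hZ x hx => ?_⟩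
    show ‖iteratedFDeriv ℝ i (F Z + F' Z) x‖ ≤ _
    rw [iteratedFDeriv_add_apply ((h.1 Z hZ).contDiffAt.of_le (nat_le_top i))
        ((h'.1 Z hZ).contDiffAt.of_le (nat_le_top i)), add_mul]
    exact (norm_add_le _ _).trans (add_le_add (hb Z hZ x hx) (hb' Z hZ x hx))⟩

lemma neg (h : Ord S m F) : Ord S m fun Z y => -F Z y :=
  ⟨fun Z hZ => (h.1 Z hZ).neg, fun i => by
    obtain ⟨C, hC, hb⟩ := h.2 i
    refine ⟨C, hC, fun Z hZ x hx => ?_⟩
    show ‖iteratedFDeriv ℝ i (-F Z) x‖ ≤ _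
    rw [iteratedFDeriv_neg_apply, norm_neg]
    exact hb Z hZ x hx⟩

lemma sub (h : Ord S m F) (h' : Ord S m F') : Ord S m fun Z y => F Z y - F' Z y := by
  simp only [sub_eq_add_neg]
  exact h.add h'.neg

lemma coeff {c : P2 → ℝ} (hS : IsCompact S) (hc : Sm c) : Ord S 0 fun _ => c :=
  ⟨fun _ _ => hc, fun i => by
    obtain ⟨C, hC⟩ := hS.exists_bound_of_continuousOn
      (hc.continuous_iteratedFDeriv (nat_le_top i)).continuousOn
    exact ⟨max C 0, le_max_right _ _, fun Z _ x hx => ((hC x hx).trans (le_max_left _ _)).trans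
      (le_mul_of_one_le_right (le_max_right _ _) (one_le_G _ _ _))⟩⟩

lemma cmul {c : P2 → ℝ} (hS : IsCompact S) (hc : Sm c) (h : Ord S m F) :
    Ord S m fun Z y => c y * F Z y :=
  ⟨fun Z hZ => hc.mul (h.1 Z hZ), fun i => by
    choose C hC hb using h.2
    choose B hB using fun j => hS.exists_bound_of_continuousOn
      (hc.continuous_iteratedFDeriv (nat_le_top j)).continuousOn
    refine ⟨∑ j ∈ Finset.range (i + 1), (i.choose j : ℝ) * max (B j) 0 * C (i - j), ?_, ?_⟩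
    · exact Finset.sum_nonneg fun j _ => mul_nonneg (by positivity) (hC _)
    intro Z hZ x hx
    refine (norm_iteratedFDeriv_mul_le hc (h.1 Z hZ) x (nat_le_top i)).trans ?_
    rw [Finset.sum_mul]
    refine Finset.sum_le_sum fun j hj => ?_
    rw [mul_assoc _ (C (i - j))]
    exact mul_le_mul (mul_le_mul_of_nonneg_left ((hB j x hx).trans (le_max_left _ _))
      (Nat.cast_nonneg _))
      ((hb _ Z hZ x hx).trans (mul_le_mul_of_nonneg_left (G_mono (by omega) Z x) (hC _)))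
      (norm_nonneg _) (by positivity)⟩

end Ord

/-- Of two orders with a bounded sum one is controlled by the low bound. -/
lemma G_prod_le {p q n : ℕ} (hn : 7 ≤ n) (hp : p ≤ n + 1) (hq : q ≤ n + 1) (hpq : p + q ≤ n + 4)
    {B : ℝ} {Z : P2 → ℝ} (hB : G (n - 2) Z x ≤ B) : G p Z x * G q Z x ≤ B * G (n + 1) Z x := by
  rcases le_or_gt p (n - 2) with h | h
  · exact mul_le_mul ((G_mono h Z x).trans hB) (G_mono hq Z x) (G_nonneg _ _ _)
      ((G_nonneg _ _ _).trans hB)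
  · rw [mul_comm]
    exact mul_le_mul ((G_mono (by omega) Z x).trans hB) (G_mono hp Z x) (G_nonneg _ _ _)
      ((G_nonneg _ _ _).trans hB)

/-- The Leibniz bound for a product of two functionals. -/
lemma prod_bound {a b : ℕ} {F F' : (P2 → ℝ) → P2 → ℝ} (hF : Ord S a F) (hF' : Ord S b F')
    {n k : ℕ} (hn : 7 ≤ n) (ha : k + a ≤ n + 1) (hb : k + b ≤ n + 1) (hab : k + a + b ≤ n + 4) :
    ∃ C : ℝ, 0 ≤ C ∧ ∀ Z, Sm Z → ∀ x ∈ S, ∀ B, G (n - 2) Z x ≤ B →
      ‖iteratedFDeriv ℝ k (fun y => F Z y * F' Z y) x‖ ≤ C * (B * G (n + 1) Z x) := by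
  choose C hC hCb using hF.2
  choose C' hC' hCb' using hF'.2
  refine ⟨∑ i ∈ Finset.range (k + 1), (k.choose i : ℝ) * C i * C' (k - i),
    Finset.sum_nonneg fun i _ => mul_nonneg (mul_nonneg (Nat.cast_nonneg _) (hC _)) (hC' _), ?_⟩
  intro Z hZ x hx B hB
  refine (norm_iteratedFDeriv_mul_le (hF.1 Z hZ) (hF'.1 Z hZ) x (nat_le_top k)).trans ?_
  rw [Finset.sum_mul]
  refine Finset.sum_le_sum fun i hi => ?_
  rw [Finset.mem_range] at hi
  calc (k.choose i : ℝ) * ‖iteratedFDeriv ℝ i (F Z) x‖ * ‖iteratedFDeriv ℝ (k - i) (F' Z) x‖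
      ≤ (k.choose i : ℝ) * (C i * G (i + a) Z x) * (C' (k - i) * G (k - i + b) Z x) :=
        mul_le_mul (mul_le_mul_of_nonneg_left (hCb i Z hZ x hx) (Nat.cast_nonneg _))
          (hCb' _ Z hZ x hx) (norm_nonneg _)
          (mul_nonneg (Nat.cast_nonneg _) (mul_nonneg (hC _) (G_nonneg _ _ _)))
    _ = (k.choose i : ℝ) * C i * C' (k - i) * (G (i + a) Z x * G (k - i + b) Z x) := by ring
    _ ≤ _ := mul_le_mul_of_nonneg_left (G_prod_le hn (by omega) (by omega) (by omega) hB)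
        (mul_nonneg (mul_nonneg (Nat.cast_nonneg _) (hC _)) (hC' _))

/-- The commutator of an iterated derivative with multiplication by `a`. -/
noncomputable def comm (l : List Bool) (a g : P2 → ℝ) (x : P2) : ℝ :=
  dw l (fun y => a y * g y) x - a x * dw l g x

lemma sm_comm (ha : Sm a) (hg : Sm g) (l : List Bool) : Sm (comm l a g) :=
  (sm_dw (ha.mul hg) l).sub (ha.mul (sm_dw hg l))

lemma comm_cons (ha : Sm a) (hg : Sm g) (b : Bool) (l : List Bool) :
    comm (b :: l) a g = fun x => dd b (comm l a g) x + dd b a x * dw l g x := by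
  have e : dw l (fun y => a y * g y) = fun y => comm l a g y + a y * dw l g y := by
    funext y; simp [comm]
  funext x
  show dd b (dw l fun y => a y * g y) x - a x * dd b (dw l g) x = _
  rw [e, dd_add (sm_comm ha hg l) (ha.mul (sm_dw hg l)) b, dd_mul ha (sm_dw hg l) b]
  ring

/-- The commutator bound. -/
lemma comm_bound : ∀ (n k : ℕ), ∃ K : ℝ, 0 ≤ K ∧ ∀ a g : P2 → ℝ, Sm a → Sm g →
    ∀ l : List Bool, l.length = n → ∀ x,
      ‖iteratedFDeriv ℝ k (comm l a g) x‖ ≤ K * ∑ i ∈ Finset.range (n + k),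
        ‖iteratedFDeriv ℝ (i + 1) a x‖ * ‖iteratedFDeriv ℝ (n + k - (i + 1)) g x‖ := by
  intro n
  induction n with
  | zero =>
    refine fun k => ⟨0, le_rfl, fun a g _ _ l hl x => ?_⟩
    obtain rfl := List.length_eq_zero_iff.1 hl
    have : comm [] a g = fun _ => 0 := by funext y; simp [comm, dw]
    simp [this]
  | succ n ih =>
    intro k
    obtain ⟨K, hK, hb⟩ := ih (k + 1)
    refine ⟨K + 2 ^ k, by positivity, fun a g ha hg l hl x => ?_⟩
    match l, hl with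
    | b :: l, hl =>
      have hl' : l.length = n := by simpa using hl
      set S' := ∑ i ∈ Finset.range (n + 1 + k),
        ‖iteratedFDeriv ℝ (i + 1) a x‖ * ‖iteratedFDeriv ℝ (n + 1 + k - (i + 1)) g x‖
      rw [comm_cons ha hg b l,
        show (fun y => dd b (comm l a g) y + dd b a y * dw l g y) =
          dd b (comm l a g) + fun y => dd b a y * dw l g y from rfl,
        iteratedFDeriv_add_apply ((sm_dd (sm_comm ha hg l) b).contDiffAt.of_le (nat_le_top k))
          (((sm_dd ha b).mul (sm_dw hg l)).contDiffAt.of_le (nat_le_top k)), add_mul]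
      refine (norm_add_le _ _).trans (add_le_add ?_ ?_)
      · refine (norm_iter_dd (sm_comm ha hg l) b k).trans ((hb a g ha hg l hl' x).trans ?_)
        refine mul_le_mul_of_nonneg_left (le_of_eq ?_) hK
        rw [show n + (k + 1) = n + 1 + k by omega]
      · refine (norm_iteratedFDeriv_mul_le (sm_dd ha b) (sm_dw hg l) x (nat_le_top k)).trans ?_
        rw [show (2 : ℝ) ^ k = ∑ i ∈ Finset.range (k + 1), (k.choose i : ℝ) by
          exact_mod_cast (Nat.sum_range_choose k).symm, Finset.sum_mul]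
        refine Finset.sum_le_sum fun i hi => ?_
        rw [Finset.mem_range] at hi
        rw [mul_assoc]
        refine mul_le_mul_of_nonneg_left ?_ (Nat.cast_nonneg _)
        refine (mul_le_mul (norm_iter_dd ha b i) (norm_iter_dw hg l (k - i)) (norm_nonneg _)
          (norm_nonneg _)).trans ?_
        rw [hl', show k - i + n = n + 1 + k - (i + 1) by omega]
        exact Finset.single_le_sum
          (f := fun i => ‖iteratedFDeriv ℝ (i + 1) a x‖ *
            ‖iteratedFDeriv ℝ (n + 1 + k - (i + 1)) g x‖)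
          (fun _ _ => mul_nonneg (norm_nonneg _) (norm_nonneg _)) (Finset.mem_range.2 (by omega))

/-- The commutator of two functionals of orders two and three. -/
lemma comm_order {F F' : (P2 → ℝ) → P2 → ℝ} (hF : Ord S 2 F) (hF' : Ord S 3 F') {n : ℕ}
    (hn : 7 ≤ n) :
    ∃ C : ℝ, 0 ≤ C ∧ ∀ Z, Sm Z → ∀ l : List Bool, l.length = n - 1 → ∀ x ∈ S, ∀ B,
      G (n - 2) Z x ≤ B → |comm l (F Z) (F' Z) x| ≤ C * (B * G (n + 1) Z x) := by
  choose C hC hCb using hF.2
  choose C' hC' hCb' using hF'.2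
  obtain ⟨K, hK, hKb⟩ := comm_bound (n - 1) 0
  refine ⟨K * ∑ i ∈ Finset.range (n - 1), C (i + 1) * C' (n - 1 - (i + 1)),
    mul_nonneg hK (Finset.sum_nonneg fun i _ => mul_nonneg (hC _) (hC' _)), ?_⟩
  intro Z hZ l hl x hx B hB
  have h := hKb (F Z) (F' Z) (hF.1 Z hZ) (hF'.1 Z hZ) l hl x
  rw [norm_iteratedFDeriv_zero, Real.norm_eq_abs, add_zero] at h
  refine h.trans ?_
  rw [mul_assoc, Finset.sum_mul]
  refine mul_le_mul_of_nonneg_left (Finset.sum_le_sum fun i hi => ?_) hK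
  rw [Finset.mem_range] at hi
  calc _ ≤ (C (i + 1) * G (i + 1 + 2) Z x) *
      (C' (n - 1 - (i + 1)) * G (n - 1 - (i + 1) + 3) Z x) :=
        mul_le_mul (hCb _ Z hZ x hx) (hCb' _ Z hZ x hx) (norm_nonneg _)
          (mul_nonneg (hC _) (G_nonneg _ _ _))
    _ = C (i + 1) * C' (n - 1 - (i + 1)) * (G (i + 1 + 2) Z x * G (n - 1 - (i + 1) + 3) Z x) := by
        ring
    _ ≤ _ := mul_le_mul_of_nonneg_left (G_prod_le hn (by omega) (by omega) (by omega) hB)
        (mul_nonneg (hC _) (hC' _))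

end Vale.Agent.P229.Sea
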