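import Vale.Agent.P229.Interfaces
import Vale.Agent.P229.Sea.Order
import Vale.Agent.P229.Sea.Linear

/-!
# P229 seat B: a priori bounds of every order for the Darboux equation in the elliptic sea
-/

namespace Vale.Agent.P229.Sea

open MeasureTheory Set
open scoped ContDiff Topology

/-- A smooth radial cut-off of the annulus. -/
noncomputable def ring (a₀ a a' a₀' : ℝ) (x : P2) : ℝ :=
  Real.smoothTransition ((rsq x - a₀) / (a - a₀)) *
    Real.smoothTransition ((a₀' - rsq x) / (a₀' - a'))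

lemma sm_rsq : Sm rsq := (contDiff_fst.pow 2).add (contDiff_snd.pow 2)

lemma isCompact_ann (p q : ℝ) : IsCompact (Ann p q) :=
  (isCompact_Dsk q).of_isClosed_subset
    ((isClosed_le continuous_const (sm_rsq.continuous)).inter
      (isClosed_le (sm_rsq.continuous) continuous_const)) fun _ hx => hx.2

lemma ann_mono {p q p' q' : ℝ} (hp : p' ≤ p) (hq : q ≤ q') : Ann p q ⊆ Ann p' q' :=
  fun _ hx => ⟨hp.trans hx.1, hx.2.trans hq⟩

lemma sm_ring (a₀ a a' a₀' : ℝ) : Sm (ring a₀ a a' a₀') :=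
  (Real.smoothTransition.contDiff.comp ((sm_rsq.sub contDiff_const).div_const _)).mul
    (Real.smoothTransition.contDiff.comp ((contDiff_const.sub sm_rsq).div_const _))

lemma ring_one {a₀ a a' a₀' : ℝ} (h : a₀ < a) (h' : a' < a₀') {x : P2} (hx : x ∈ Ann a a') :
    ring a₀ a a' a₀' x = 1 := by
  rw [ring, Real.smoothTransition.one_of_one_le, Real.smoothTransition.one_of_one_le, one_mul]
  · rw [le_div_iff₀ (by linarith)]; linarith [hx.2]
  · rw [le_div_iff₀ (by linarith)]; linarith [hx.1]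

lemma ring_mem (a₀ a a' a₀' : ℝ) (x : P2) :
    0 ≤ ring a₀ a a' a₀' x ∧ ring a₀ a a' a₀' x ≤ 1 :=
  ⟨mul_nonneg (Real.smoothTransition.nonneg _) (Real.smoothTransition.nonneg _),
    mul_le_one₀ (Real.smoothTransition.le_one _) (Real.smoothTransition.nonneg _)
      (Real.smoothTransition.le_one _)⟩

lemma tsupport_ring {a₀ a a' a₀' : ℝ} (h : a₀ < a) (h' : a' < a₀') :
    tsupport (ring a₀ a a' a₀') ⊆ Ann a₀ a₀' := by
  refine closure_minimal (fun x hx => ⟨?_, ?_⟩) (isCompact_ann _ _).isClosed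
  · by_contra hc
    refine hx (mul_eq_zero_of_left (Real.smoothTransition.zero_of_nonpos ?_) _)
    exact div_nonpos_of_nonpos_of_nonneg (by linarith [not_le.1 hc]) (by linarith)
  · by_contra hc
    refine hx (mul_eq_zero_of_right _ (Real.smoothTransition.zero_of_nonpos ?_))
    exact div_nonpos_of_nonpos_of_nonneg (by linarith [not_le.1 hc]) (by linarith)

lemma hcs_ring {a₀ a a' a₀' : ℝ} (h : a₀ < a) (h' : a' < a₀') :
    HasCompactSupport (ring a₀ a a' a₀') :=
  (isCompact_ann a₀ a₀').of_isClosed_subset (isClosed_tsupport _) (tsupport_ring h h')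

/-! ### The class of solutions and the differentiated equation -/

/-- Smooth solutions with the `C⁸` bound and the ellipticity on the annulus. -/
def Adm (φ : P2 → ℝ) (κ r r' M c : ℝ) (Z : P2 → ℝ) : Prop :=
  Sm Z ∧ (∀ x ∈ Ann r r', ∀ i : ℕ, i ≤ 8 → ‖iteratedFDeriv ℝ i Z x‖ ≤ M) ∧
    (∀ x ∈ Ann r r', Darboux κ φ Z x) ∧
    ∀ x ∈ Ann r r', c ≤ H11 φ Z x * H22 φ Z x - H12 φ Z x ^ 2

/-- First-order part of `H11`. -/
noncomputable def l11 (φ Z : P2 → ℝ) (y : P2) : ℝ :=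
  dd true φ y * dd true Z y - dd false φ y * dd false Z y

/-- First-order part of `H12`. -/
noncomputable def l12 (φ Z : P2 → ℝ) (y : P2) : ℝ :=
  -(dd true φ y * dd false Z y + dd false φ y * dd true Z y)

/-- First-order part of `H22`. -/
noncomputable def l22 (φ Z : P2 → ℝ) (y : P2) : ℝ :=
  dd false φ y * dd false Z y - dd true φ y * dd true Z y

lemma H11_eq (φ Z : P2 → ℝ) : H11 φ Z = fun y => dd false (dd false Z) y + l11 φ Z y := by
  funext y; simp only [H11, l11, dd]; ring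

lemma H12_eq (φ Z : P2 → ℝ) : H12 φ Z = fun y => dd false (dd true Z) y + l12 φ Z y := by
  funext y; simp only [H12, l12, dd]; ring

lemma H22_eq (φ Z : P2 → ℝ) : H22 φ Z = fun y => dd true (dd true Z) y + l22 φ Z y := by
  funext y; simp only [H22, l22, dd]; ring

lemma sm_lap {φ : P2 → ℝ} (hφ : Sm φ) : Sm (lap φ) :=
  (sm_dd (sm_dd hφ false) false).add (sm_dd (sm_dd hφ true) true)

section orders

variable {φ : P2 → ℝ} {S : Set P2}

lemma ord_dZ (b : Bool) : Ord S 1 fun Z => dd b Z := (Ord.self S).deriv b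

lemma ord_l11 (hS : IsCompact S) (hφ : Sm φ) : Ord S 1 fun Z => l11 φ Z :=
  (Ord.cmul hS (sm_dd hφ true) (ord_dZ true)).sub (Ord.cmul hS (sm_dd hφ false) (ord_dZ false))

lemma ord_l12 (hS : IsCompact S) (hφ : Sm φ) : Ord S 1 fun Z => l12 φ Z :=
  ((Ord.cmul hS (sm_dd hφ true) (ord_dZ false)).add
    (Ord.cmul hS (sm_dd hφ false) (ord_dZ true))).neg

lemma ord_l22 (hS : IsCompact S) (hφ : Sm φ) : Ord S 1 fun Z => l22 φ Z :=
  (Ord.cmul hS (sm_dd hφ false) (ord_dZ false)).sub (Ord.cmul hS (sm_dd hφ true) (ord_dZ true))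

lemma ord_H11 (hS : IsCompact S) (hφ : Sm φ) : Ord S 2 fun Z => H11 φ Z := by
  simp only [H11_eq]
  exact ((ord_dZ false).deriv false).add ((ord_l11 hS hφ).mono one_le_two)

lemma ord_H12 (hS : IsCompact S) (hφ : Sm φ) : Ord S 2 fun Z => H12 φ Z := by
  simp only [H12_eq]
  exact ((ord_dZ true).deriv false).add ((ord_l12 hS hφ).mono one_le_two)

lemma ord_H22 (hS : IsCompact S) (hφ : Sm φ) : Ord S 2 fun Z => H22 φ Z := by
  simp only [H22_eq]
  exact ((ord_dZ true).deriv true).add ((ord_l22 hS hφ).mono one_le_two)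

end orders

/-- Functionals with lower-order derivatives at the level `n`. -/
def Low (S : Set P2) (n : ℕ) (R : (P2 → ℝ) → P2 → ℝ) : Prop :=
  (∀ Z, Sm Z → Sm (R Z)) ∧ ∃ C : ℝ, 0 ≤ C ∧ ∀ Z, Sm Z → ∀ l : List Bool, l.length = n - 1 →
    ∀ x ∈ S, ∀ B, G (n - 2) Z x ≤ B → |dw l (R Z) x| ≤ C * (B * G (n + 1) Z x)

namespace Low

variable {S : Set P2} {n : ℕ} {R R' : (P2 → ℝ) → P2 → ℝ}

lemma prod {F F' : (P2 → ℝ) → P2 → ℝ} (hn : 7 ≤ n) (hF : Ord S 2 F) (hF' : Ord S 2 F') :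
    Low S n fun Z y => F Z y * F' Z y := by
  refine ⟨fun Z hZ => (hF.1 Z hZ).mul (hF'.1 Z hZ), ?_⟩
  obtain ⟨C, hC, hb⟩ := prod_bound hF hF' (n := n) (k := n - 1) hn (by omega) (by omega) (by omega)
  refine ⟨C, hC, fun Z hZ l hl x hx B hB => ?_⟩
  exact (abs_dw_le ((hF.1 Z hZ).mul (hF'.1 Z hZ)) l).trans (hl ▸ hb Z hZ x hx B hB)

lemma add (h : Low S n R) (h' : Low S n R') : Low S n fun Z y => R Z y + R' Z y := by
  obtain ⟨hs, C, hC, hb⟩ := h
  obtain ⟨hs', C', hC', hb'⟩ := h'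
  refine ⟨fun Z hZ => (hs Z hZ).add (hs' Z hZ), C + C', add_nonneg hC hC',
    fun Z hZ l hl x hx B hB => ?_⟩
  rw [dw_add (hs Z hZ) (hs' Z hZ) l, add_mul]
  exact (abs_add_le _ _).trans (add_le_add (hb Z hZ l hl x hx B hB) (hb' Z hZ l hl x hx B hB))

end Low

/-- The lower-order part of the differentiated Darboux operator. -/
noncomputable def rest (φ : P2 → ℝ) (κ : ℝ) (b : Bool) (Z : P2 → ℝ) (y : P2) : ℝ :=
  H22 φ Z y * dd b (l11 φ Z) y + H11 φ Z y * dd b (l22 φ Z) y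
    + -2 * H12 φ Z y * dd b (l12 φ Z) y
    + dd b (fun z => lap φ z * (κ * Real.exp (2 * φ z))) y * 1
    + -(dd b (fun z => lap φ z * dd false Z z) y) * dd false Z y
    + -(lap φ y * dd false Z y) * dd b (dd false Z) y
    + -(dd b (fun z => lap φ z * dd true Z z) y) * dd true Z y
    + -(lap φ y * dd true Z y) * dd b (dd true Z) y

lemma low_rest {S : Set P2} {φ : P2 → ℝ} (hS : IsCompact S) (hφ : Sm φ) (κ : ℝ) (b : Bool)
    {n : ℕ} (hn : 7 ≤ n) : Low S n fun Z => rest φ κ b Z := by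
  have hL := sm_lap hφ
  have hE : Sm fun z => lap φ z * (κ * Real.exp (2 * φ z)) :=
    hL.mul (contDiff_const.mul (contDiff_const.mul hφ).exp)
  have h2 : Ord S 2 fun Z y => -2 * H12 φ Z y :=
    Ord.cmul hS (contDiff_const (c := (-2 : ℝ))) (ord_H12 hS hφ)
  have hLd : ∀ b', Ord S 1 fun Z y => lap φ y * dd b' Z y := fun b' =>
    Ord.cmul hS hL (ord_dZ b')
  exact (((((((Low.prod hn (ord_H22 hS hφ) ((ord_l11 hS hφ).deriv b)).add
    (Low.prod hn (ord_H11 hS hφ) ((ord_l22 hS hφ).deriv b))).add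
    (Low.prod hn h2 ((ord_l12 hS hφ).deriv b))).add
    (Low.prod hn ((Ord.coeff hS (sm_dd hE b)).mono (Nat.zero_le _))
      ((Ord.coeff hS (contDiff_const (c := (1 : ℝ)))).mono (Nat.zero_le _)))).add
    (Low.prod hn ((hLd false).deriv b).neg ((ord_dZ false).mono one_le_two))).add
    (Low.prod hn ((hLd false).mono one_le_two).neg ((ord_dZ false).deriv b))).add
    (Low.prod hn ((hLd true).deriv b).neg ((ord_dZ true).mono one_le_two))).add
    (Low.prod hn ((hLd true).mono one_le_two).neg ((ord_dZ true).deriv b))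

/-- The Darboux operator. -/
noncomputable def dar (φ : P2 → ℝ) (κ : ℝ) (Z : P2 → ℝ) (y : P2) : ℝ :=
  H11 φ Z y * H22 φ Z y - H12 φ Z y * H12 φ Z y
    + (lap φ y * (κ * Real.exp (2 * φ y))
      - (lap φ y * dd false Z y * dd false Z y + lap φ y * dd true Z y * dd true Z y))

lemma dd_dar {φ Z : P2 → ℝ} (hφ : Sm φ) (hZ : Sm Z) (κ : ℝ) (b : Bool) :
    dd b (dar φ κ Z) = fun y =>
      H22 φ Z y * dd false (dd false (dd b Z)) y
        + -2 * H12 φ Z y * dd false (dd true (dd b Z)) y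
        + H11 φ Z y * dd true (dd true (dd b Z)) y + rest φ κ b Z y := by
  have hL := sm_lap hφ
  have sf := sm_dd hZ false
  have st := sm_dd hZ true
  have hE : Sm fun z => lap φ z * (κ * Real.exp (2 * φ z)) :=
    hL.mul (contDiff_const.mul (contDiff_const.mul hφ).exp)
  have s11 := (ord_l11 (isCompact_ann 0 0) hφ).1 Z hZ
  have s12 := (ord_l12 (isCompact_ann 0 0) hφ).1 Z hZ
  have s22 := (ord_l22 (isCompact_ann 0 0) hφ).1 Z hZ
  have sP := (ord_H11 (isCompact_ann 0 0) hφ).1 Z hZ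
  have sQ := (ord_H12 (isCompact_ann 0 0) hφ).1 Z hZ
  have sS := (ord_H22 (isCompact_ann 0 0) hφ).1 Z hZ
  have eP : dd b (H11 φ Z) = fun y => dd false (dd false (dd b Z)) y + dd b (l11 φ Z) y := by
    rw [H11_eq, dd_add (sm_dd sf false) s11 b, dd_comm sf b false, dd_comm hZ b false]
  have eQ : dd b (H12 φ Z) = fun y => dd false (dd true (dd b Z)) y + dd b (l12 φ Z) y := by
    rw [H12_eq, dd_add (sm_dd st false) s12 b, dd_comm st b false, dd_comm hZ b true]
  have eS : dd b (H22 φ Z) = fun y => dd true (dd true (dd b Z)) y + dd b (l22 φ Z) y := by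
    rw [H22_eq, dd_add (sm_dd st true) s22 b, dd_comm st b true, dd_comm hZ b true]
  have hdar : dar φ κ Z = fun y =>
      (fun z => H11 φ Z z * H22 φ Z z) y + ((fun z => -1 * (H12 φ Z z * H12 φ Z z)) y
      + ((fun z => lap φ z * (κ * Real.exp (2 * φ z))) y
        + (fun z => -1 * (lap φ z * dd false Z z * dd false Z z
          + lap φ z * dd true Z z * dd true Z z)) y)) := by
    funext y; simp only [dar]; ring
  rw [hdar, dd_add (sP.mul sS) ((contDiff_const.mul (sQ.mul sQ)).add (hE.add (contDiff_const.mul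
      (((hL.mul sf).mul sf).add ((hL.mul st).mul st))))) b,
    dd_add (contDiff_const.mul (sQ.mul sQ)) (hE.add (contDiff_const.mul
      (((hL.mul sf).mul sf).add ((hL.mul st).mul st)))) b,
    dd_add hE (contDiff_const.mul (((hL.mul sf).mul sf).add ((hL.mul st).mul st))) b,
    dd_mul sP sS b, dd_smul (sQ.mul sQ) (-1) b, dd_mul sQ sQ b,
    dd_smul (((hL.mul sf).mul sf).add ((hL.mul st).mul st)) (-1) b,
    dd_add ((hL.mul sf).mul sf) ((hL.mul st).mul st) b,
    dd_mul (hL.mul sf) sf b, dd_mul (hL.mul st) st b, eP, eQ, eS]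
  funext y
  simp only [rest]
  ring

lemma dw_congr {f g : P2 → ℝ} {U : Set P2} (hU : IsOpen U) (h : EqOn f g U) :
    ∀ l, EqOn (dw l f) (dw l g) U
  | [] => h
  | b :: l => fun x hx => by
    have e : dw l f =ᶠ[𝓝 x] dw l g :=
      Filter.eventuallyEq_of_mem (hU.mem_nhds hx) (dw_congr hU h l)
    cases b
    · show fderiv ℝ (dw l f) x (1, 0) = fderiv ℝ (dw l g) x (1, 0)
      rw [e.fderiv_eq]
    · show fderiv ℝ (dw l f) x (0, 1) = fderiv ℝ (dw l g) x (0, 1)
      rw [e.fderiv_eq]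

lemma dw_const (k : ℝ) : ∀ (l : List Bool), l ≠ [] → dw l (fun _ => k) = fun _ => 0
  | [], h => absurd rfl h
  | b :: l, _ => by
    rcases l with _ | ⟨b', l⟩
    · cases b <;> · funext y; simp [dw, dd, d1, d2]
    · show dd b (dw (b' :: l) _) = _
      rw [dw_const k (b' :: l) (List.cons_ne_nil _ _)]
      cases b <;> · funext y; simp [dd, d1, d2]

/-- Every derivative of order `n` solves a linear equation with a lower-order right-hand side. -/
lemma key_eq {φ : P2 → ℝ} (hφ : Sm φ) (κ r r' M c : ℝ) {n : ℕ} (hn : 8 ≤ n) :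
    ∃ C : ℝ, 0 ≤ C ∧ ∀ Z, Adm φ κ r r' M c Z → ∀ w : List Bool, w.length = n →
      ∀ x, r < rsq x → rsq x < r' → ∀ B, G (n - 2) Z x ≤ B →
        |H22 φ Z x * d1 (d1 (dw w Z)) x + -2 * H12 φ Z x * d1 (d2 (dw w Z)) x
          + H11 φ Z x * d2 (d2 (dw w Z)) x| ≤ C * (B * G (n + 1) Z x) := by
  have hS := isCompact_ann r r'
  have h2 : Ord (Ann r r') 2 fun Z y => -2 * H12 φ Z y :=
    Ord.cmul hS (contDiff_const (c := (-2 : ℝ))) (ord_H12 hS hφ)
  have each : ∀ b : Bool, ∃ C : ℝ, 0 ≤ C ∧ ∀ Z, Adm φ κ r r' M c Z → ∀ l : List Bool,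
      l.length = n - 1 → ∀ x, r < rsq x → rsq x < r' → ∀ B, G (n - 2) Z x ≤ B →
        |H22 φ Z x * dd false (dd false (dd b (dw l Z))) x
          + -2 * H12 φ Z x * dd false (dd true (dd b (dw l Z))) x
          + H11 φ Z x * dd true (dd true (dd b (dw l Z))) x| ≤ C * (B * G (n + 1) Z x) := by
    intro b
    obtain ⟨C1, hC1, e1⟩ := comm_order (ord_H22 hS hφ) (((ord_dZ b).deriv false).deriv false)
      (n := n) (by omega)
    obtain ⟨C2, hC2, e2⟩ := comm_order h2 (((ord_dZ b).deriv true).deriv false) (n := n) (by omega)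
    obtain ⟨C3, hC3, e3⟩ := comm_order (ord_H11 hS hφ) (((ord_dZ b).deriv true).deriv true)
      (n := n) (by omega)
    obtain ⟨hR, C4, hC4, e4⟩ := low_rest hS hφ κ b (n := n) (by omega)
    refine ⟨C1 + C2 + C3 + C4, by positivity, fun Z hZ l hl x hx hx' B hB => ?_⟩
    have hxS : x ∈ Ann r r' := ⟨hx.le, hx'.le⟩
    have hs := hZ.1
    have sP := (ord_H11 hS hφ).1 Z hs
    have sS := (ord_H22 hS hφ).1 Z hs
    have s2 := h2.1 Z hs
    have hU : IsOpen {y : P2 | r < rsq y ∧ rsq y < r'} :=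
      (isOpen_lt continuous_const sm_rsq.continuous).inter
        (isOpen_lt sm_rsq.continuous continuous_const)
    have h0 : EqOn (dar φ κ Z) (fun _ => 0) {y : P2 | r < rsq y ∧ rsq y < r'} := fun y hy => by
      have := hZ.2.2.1 y ⟨hy.1.le, hy.2.le⟩
      simp only [Darboux, gradSq] at this
      simp only [dar, dd]
      linarith
    have hd := dw_congr hU h0 (l ++ [b]) (⟨hx, hx'⟩ : x ∈ {y : P2 | r < rsq y ∧ rsq y < r'})
    rw [dw_const 0 _ (by simp), dw_append, dd_dar hφ hs κ b] at hd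
    have sb := sm_dd hs b
    have A1 := sm_dd (sm_dd sb false) false
    have A2 := sm_dd (sm_dd sb true) false
    have A3 := sm_dd (sm_dd sb true) true
    rw [dw_add (((sS.mul A1).add (s2.mul A2)).add (sP.mul A3)) (hR Z hs) l,
      dw_add ((sS.mul A1).add (s2.mul A2)) (sP.mul A3) l,
      dw_add (sS.mul A1) (s2.mul A2) l] at hd
    have q1 := e1 Z hs l hl x hxS B hB
    have q2 := e2 Z hs l hl x hxS B hB
    have q3 := e3 Z hs l hl x hxS B hB
    have q4 := e4 Z hs l hl x hxS B hB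
    simp only [comm] at q1 q2 q3
    simp only [dw_dd (sm_dd sb false) false l, dw_dd (sm_dd sb true) false l,
      dw_dd (sm_dd sb true) true l, dw_dd sb false l, dw_dd sb true l, dw_dd hs b l] at q1 q2 q3
    rw [abs_le] at q1 q2 q3 q4 ⊢
    simp only [] at hd
    constructor <;> linarith
  obtain ⟨Cf, hCf, ef⟩ := each false
  obtain ⟨Ct, hCt, et⟩ := each true
  refine ⟨Cf + Ct, add_nonneg hCf hCt, fun Z hZ w hw x hx hx' B hB => ?_⟩
  rcases List.eq_nil_or_concat w with rfl | ⟨l, b, rfl⟩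
  · simp at hw; omega
  · rw [List.concat_eq_append, dw_append, dw_dd hZ.1 b l]
    have hl : l.length = n - 1 := by simp at hw; omega
    have hBG : 0 ≤ B * G (n + 1) Z x :=
      mul_nonneg ((G_nonneg _ _ _).trans hB) (G_nonneg _ _ _)
    have := mul_nonneg hCf hBG
    have := mul_nonneg hCt hBG
    cases b
    · have h := ef Z hZ l hl x hx hx' B hB
      simp only [dd] at h ⊢
      linarith
    · have h := et Z hZ l hl x hx hx' B hB
      simp only [dd] at h ⊢
      linarith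

/-! ### From words to full derivatives -/

lemma norm_iter_le : ∀ (i : ℕ) (f : P2 → ℝ), Sm f → ∀ (x : P2) (E : ℝ),
    (∀ w : List Bool, w.length = i → |dw w f x| ≤ E) → ‖iteratedFDeriv ℝ i f x‖ ≤ 2 ^ i * E
  | 0, f, _, x, E, h => by simpa [dw] using h [] rfl
  | i + 1, f, hf, x, E, h => by
    refine (norm_iter_succ_le hf i).trans ?_
    have h' : ∀ b, ∀ w : List Bool, w.length = i → |dw w (dd b f) x| ≤ E := fun b w hw => by
      rw [← dw_append]; exact h _ (by simp [hw])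
    have := norm_iter_le i _ (sm_dd hf false) x E (h' false)
    have := norm_iter_le i _ (sm_dd hf true) x E (h' true)
    rw [pow_succ]
    linarith

lemma cont_iter {f : P2 → ℝ} (hf : Sm f) (i : ℕ) :
    Continuous fun x => ‖iteratedFDeriv ℝ i f x‖ :=
  (hf.continuous_iteratedFDeriv (nat_le_top i)).norm

lemma cont_G {f : P2 → ℝ} (hf : Sm f) (m : ℕ) : Continuous (G m f) :=
  continuous_const.add (continuous_finsetSum _ fun i _ => cont_iter hf i)

lemma integrable_cut {χ g : P2 → ℝ} (hχ : Continuous χ) (hc : HasCompactSupport χ)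
    (hg : Continuous g) : Integrable fun x => χ x ^ 2 * g x :=
  ((hχ.pow 2).mul hg).integrable_of_hasCompactSupport
    (HasCompactSupport.intro hc fun x hx => by simp [image_eq_zero_of_notMem_tsupport hx])

lemma integral_iter_le {χ : P2 → ℝ} (hχ : Continuous χ) (hc : HasCompactSupport χ) :
    ∀ (k : ℕ) (f : P2 → ℝ), Sm f → ∀ E : ℝ,
    (∀ w : List Bool, w.length = k →
      ∫ x, χ x ^ 2 * (d1 (dw w f) x ^ 2 + d2 (dw w f) x ^ 2) ≤ E) →
    ∫ x, χ x ^ 2 * ‖iteratedFDeriv ℝ (k + 1) f x‖ ^ 2 ≤ 2 * 4 ^ k * E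
  | 0, f, hf, E, h => by
    have h1 := h [] rfl
    have hi : Integrable fun x => χ x ^ 2 * (d1 f x ^ 2 + d2 f x ^ 2) :=
      integrable_cut hχ hc (((sm_dd hf false).continuous.pow 2).add
        ((sm_dd hf true).continuous.pow 2))
    calc ∫ x, χ x ^ 2 * ‖iteratedFDeriv ℝ (0 + 1) f x‖ ^ 2
        ≤ ∫ x, 2 * (χ x ^ 2 * (d1 f x ^ 2 + d2 f x ^ 2)) := by
          refine integral_mono (integrable_cut hχ hc ((cont_iter hf 1).pow 2)) (hi.const_mul 2)
            fun x => ?_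
          have q := norm_iter_succ_le (x := x) hf 0
          simp only [norm_iteratedFDeriv_zero, Real.norm_eq_abs, dd] at q
          have q2 := pow_le_pow_left₀ (norm_nonneg _) q 2
          have h3 : (|d1 f x| + |d2 f x|) ^ 2 ≤ 2 * (d1 f x ^ 2 + d2 f x ^ 2) := by
            nlinarith [sq_abs (d1 f x), sq_abs (d2 f x), sq_nonneg (|d1 f x| - |d2 f x|)]
          have := mul_le_mul_of_nonneg_left (q2.trans h3) (sq_nonneg (χ x))
          linarith
      _ ≤ 2 * 4 ^ 0 * E := by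
          rw [integral_const_mul]
          simp only [dw] at h1
          linarith
  | k + 1, f, hf, E, h => by
    have h' : ∀ b, ∀ w : List Bool, w.length = k →
        ∫ x, χ x ^ 2 * (d1 (dw w (dd b f)) x ^ 2 + d2 (dw w (dd b f)) x ^ 2) ≤ E := fun b w hw => by
      rw [← dw_append]; exact h _ (by simp [hw])
    have a1 := integral_iter_le hχ hc k _ (sm_dd hf false) E (h' false)
    have a2 := integral_iter_le hχ hc k _ (sm_dd hf true) E (h' true)
    have j1 : Integrable fun x => χ x ^ 2 * ‖iteratedFDeriv ℝ (k + 1) (dd false f) x‖ ^ 2 :=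
      integrable_cut hχ hc ((cont_iter (sm_dd hf false) (k + 1)).pow 2)
    have j2 : Integrable fun x => χ x ^ 2 * ‖iteratedFDeriv ℝ (k + 1) (dd true f) x‖ ^ 2 :=
      integrable_cut hχ hc ((cont_iter (sm_dd hf true) (k + 1)).pow 2)
    calc ∫ x, χ x ^ 2 * ‖iteratedFDeriv ℝ (k + 1 + 1) f x‖ ^ 2
        ≤ ∫ x, (2 * (χ x ^ 2 * ‖iteratedFDeriv ℝ (k + 1) (dd false f) x‖ ^ 2)
            + 2 * (χ x ^ 2 * ‖iteratedFDeriv ℝ (k + 1) (dd true f) x‖ ^ 2)) := by
          refine integral_mono (integrable_cut hχ hc ((cont_iter hf _).pow 2))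
            ((j1.const_mul 2).add (j2.const_mul 2)) fun x => ?_
          have q2 := pow_le_pow_left₀ (norm_nonneg _) (norm_iter_succ_le (x := x) hf (k + 1)) 2
          have h3 : ∀ s t : ℝ, (s + t) ^ 2 ≤ 2 * s ^ 2 + 2 * t ^ 2 := fun s t => by
            nlinarith [sq_nonneg (s - t)]
          have := mul_le_mul_of_nonneg_left (q2.trans (h3 _ _)) (sq_nonneg (χ x))
          linarith
      _ ≤ 2 * 4 ^ (k + 1) * E := by
          rw [integral_add (j1.const_mul 2) (j2.const_mul 2), integral_const_mul,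
            integral_const_mul, pow_succ]
          linarith

/-! ### Induction -/

/-- Uniform `L²` bounds of order `n` on every interior annulus. -/
def Bdd (φ : P2 → ℝ) (κ r r' M c : ℝ) (n : ℕ) : Prop :=
  ∀ a a' : ℝ, r < a → a' < r' → ∃ C : ℝ, 0 ≤ C ∧ ∀ Z, Adm φ κ r r' M c Z →
    ∫ x in Ann a a', G n Z x ^ 2 ≤ C

lemma sup_bound {φ : P2 → ℝ} {κ r r' M c : ℝ} {m n : ℕ} (hmn : m + 2 ≤ n)
    (h : Bdd φ κ r r' M c n) {a a' : ℝ} (ha : r < a) (ha' : a' < r') :
    ∃ B : ℝ, 0 ≤ B ∧ ∀ Z, Adm φ κ r r' M c Z → ∀ x ∈ Ann a a', G m Z x ≤ B := by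
  have p1 : r < (r + a) / 2 := by linarith
  have p2 : (r + a) / 2 < a := by linarith
  have p3 : a' < (a' + r') / 2 := by linarith
  have p4 : (a' + r') / 2 < r' := by linarith
  set η := ring ((r + a) / 2) a a' ((a' + r') / 2) with hη
  have sη : Sm η := sm_ring _ _ _ _
  have hc : HasCompactSupport η := hcs_ring p2 p3
  have hS := isCompact_ann ((r + a) / 2) ((a' + r') / 2)
  obtain ⟨C, hC, hCb⟩ := h _ _ p1 p4
  choose N hN using fun j => hS.exists_bound_of_continuousOn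
    (sη.continuous_iteratedFDeriv (nat_le_top j)).continuousOn
  set K := ∑ j ∈ Finset.range 3, ((2 : ℕ).choose j : ℝ) * |N j| with hK
  have hK0 : 0 ≤ K := Finset.sum_nonneg fun j _ => by positivity
  refine ⟨1 + ∑ i ∈ Finset.range (m + 1), 2 ^ i * (K * C),
    add_nonneg zero_le_one (Finset.sum_nonneg fun i _ => by positivity), fun Z hZ x hx => ?_⟩
  refine add_le_add le_rfl (Finset.sum_le_sum fun i hi => ?_)
  rw [Finset.mem_range] at hi
  refine norm_iter_le i Z hZ.1 x _ fun w hw => ?_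
  have sf := sm_dw hZ.1 w
  have sv : Sm fun y => η y * dw w Z y := sη.mul sf
  have hvc : HasCompactSupport fun y => η y * dw w Z y := hc.mul_right
  have h1 := sup_le_L1 (sv.of_le (nat_le_top 2)) hvc x
  simp only [hη ▸ ring_one p2 p3 hx, one_mul] at h1
  refine h1.trans ?_
  have hpt : ∀ y, |d1 (d2 fun y => η y * dw w Z y) y| ≤
      (Ann ((r + a) / 2) ((a' + r') / 2)).indicator (fun y => K * G n Z y ^ 2) y := by
    intro y
    by_cases hy : y ∈ Ann ((r + a) / 2) ((a' + r') / 2)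
    · rw [Set.indicator_of_mem hy]
      refine (abs_dw_le sv [false, true]).trans ?_
      refine (norm_iteratedFDeriv_mul_le sη sf y (nat_le_top 2)).trans ?_
      rw [hK, Finset.sum_mul]
      refine Finset.sum_le_sum fun j hj => ?_
      have hG : ‖iteratedFDeriv ℝ (2 - j) (dw w Z) y‖ ≤ G n Z y ^ 2 :=
        ((norm_iter_dw hZ.1 w _).trans (iter_le_G (by omega) Z y)).trans
          (le_self_pow₀ (one_le_G _ _ _) two_ne_zero)
      exact mul_le_mul (mul_le_mul_of_nonneg_left ((hN j y hy).trans (le_abs_self _))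
        (Nat.cast_nonneg _)) hG (norm_nonneg _) (by positivity)
    · rw [Set.indicator_of_notMem hy]
      have e : (fun z => η z * dw w Z z) =ᶠ[𝓝 y] fun _ => 0 :=
        Filter.eventuallyEq_of_mem (hS.isClosed.isOpen_compl.mem_nhds hy) fun z hz => by
          have : η z = 0 := image_eq_zero_of_notMem_tsupport fun hh =>
            hz (tsupport_ring p2 p3 hh)
          simp [this]
      have e1 : d2 (fun z => η z * dw w Z z) =ᶠ[𝓝 y] fun _ => 0 :=
        (e.fderiv (𝕜 := ℝ)).mono fun z hz => by simp [d2, hz]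
      simp [d1, e1.fderiv_eq]
  calc ∫ y, |d1 (d2 fun y => η y * dw w Z y) y|
      ≤ ∫ y, (Ann ((r + a) / 2) ((a' + r') / 2)).indicator (fun y => K * G n Z y ^ 2) y :=
        integral_mono_of_nonneg (Filter.Eventually.of_forall fun y => abs_nonneg _)
          ((integrable_indicator_iff hS.measurableSet).2
            ((continuous_const.mul ((cont_G hZ.1 n).pow 2)).continuousOn.integrableOn_compact hS))
          (Filter.Eventually.of_forall hpt)
    _ ≤ K * C := by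
        rw [integral_indicator hS.measurableSet, integral_const_mul]
        exact mul_le_mul_of_nonneg_left (hCb Z hZ) hK0

lemma base (φ : P2 → ℝ) (κ r r' M c : ℝ) : Bdd φ κ r r' M c 8 := by
  intro a a' ha ha'
  refine ⟨(1 + 9 * max M 0) ^ 2 * volume.real (Ann a a'),
    mul_nonneg (sq_nonneg _) measureReal_nonneg, fun Z hZ => ?_⟩
  refine (setIntegral_mono_on (((cont_G hZ.1 8).pow 2).continuousOn.integrableOn_compact
    (isCompact_ann a a')) (continuous_const.continuousOn.integrableOn_compact (isCompact_ann a a'))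
    (isCompact_ann a a').measurableSet fun x hx => ?_).trans
    (le_of_eq (by rw [setIntegral_const, smul_eq_mul, mul_comm]))
  refine pow_le_pow_left₀ (G_nonneg _ _ _) (add_le_add le_rfl ?_) 2
  refine (Finset.sum_le_sum fun i hi => (hZ.2.1 x (ann_mono ha.le ha'.le hx) i
    (Nat.lt_succ_iff.1 (Finset.mem_range.1 hi))).trans (le_max_left M 0)).trans ?_
  simp

/-- The quadratic form multiplied by the trace is uniformly positive. -/
lemma form_ge {P Q S c u v : ℝ} (h : c ≤ P * S - Q ^ 2) :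
    c * (u ^ 2 + v ^ 2) ≤ (P + S) * S * u ^ 2 + 2 * ((P + S) * -Q) * u * v + (P + S) * P * v ^ 2 := by
  have := mul_le_mul_of_nonneg_right h (add_nonneg (sq_nonneg u) (sq_nonneg v))
  nlinarith [sq_nonneg (P * v - Q * u), sq_nonneg (S * u - Q * v)]

lemma mul_bounds {T A : P2 → ℝ} {x : P2} {D : ℝ} (hT : Sm T) (hA : Sm A)
    (t0 : |T x| ≤ 2 * D ∧ |d1 T x| ≤ 2 * D ∧ |d2 T x| ≤ 2 * D)
    (a0 : |A x| ≤ D ∧ |d1 A x| ≤ D ∧ |d2 A x| ≤ D) :
    |T x * A x| ≤ 4 * D ^ 2 ∧ |d1 (fun y => T y * A y) x| ≤ 4 * D ^ 2 ∧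
      |d2 (fun y => T y * A y) x| ≤ 4 * D ^ 2 := by
  obtain ⟨t, t1, t2⟩ := t0
  obtain ⟨a, a1, a2⟩ := a0
  have hD : 0 ≤ D := (abs_nonneg _).trans a
  have hk := (HD.of_diff (sm_diff hT x)).mul (HD.of_diff (sm_diff hA x))
  have m : ∀ s r : ℝ, |s| ≤ 2 * D → |r| ≤ D → |s * r| ≤ 2 * D ^ 2 := fun s r h1 h2 => by
    rw [abs_mul]
    exact (mul_le_mul h1 h2 (abs_nonneg _) (by linarith)).trans (le_of_eq (by ring))
  have : 0 ≤ D ^ 2 := sq_nonneg _
  rw [hk.d1, hk.d2]
  refine ⟨(m _ _ t a).trans (by linarith), ?_, ?_⟩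
  · exact (abs_add_le _ _).trans (by linarith [m _ _ t1 a, m _ _ t a1])
  · exact (abs_add_le _ _).trans (by linarith [m _ _ t2 a, m _ _ t a2])

/-- Values and first derivatives of the coefficients. -/
lemma coef_bounds {φ : P2 → ℝ} {S : Set P2} (hS : IsCompact S) (hφ : Sm φ) {B : ℝ} :
    ∃ D : ℝ, 0 ≤ D ∧ ∀ Z, Sm Z → ∀ x ∈ S, G 3 Z x ≤ B →
      ∀ F ∈ ({H11 φ Z, H22 φ Z, fun y => -H12 φ Z y} : Set (P2 → ℝ)),
        |F x| ≤ D ∧ |d1 F x| ≤ D ∧ |d2 F x| ≤ D := by
  have aux : ∀ {F : (P2 → ℝ) → P2 → ℝ}, Ord S 2 F → ∃ D : ℝ, 0 ≤ D ∧ ∀ Z, Sm Z → ∀ x ∈ S,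
      G 3 Z x ≤ B → |F Z x| ≤ D ∧ |d1 (F Z) x| ≤ D ∧ |d2 (F Z) x| ≤ D := by
    intro F hF
    obtain ⟨k0, h0, f0⟩ := hF.2 0
    obtain ⟨k1, h1, f1⟩ := hF.2 1
    refine ⟨(k0 + k1) * max B 0, by positivity, fun Z hZ x hx hB => ?_⟩
    have hB' : G 3 Z x ≤ max B 0 := hB.trans (le_max_left _ _)
    have u0 : k0 * G (0 + 2) Z x ≤ (k0 + k1) * max B 0 :=
      mul_le_mul (by linarith) ((G_mono (by norm_num) Z x).trans hB') (G_nonneg _ _ _) (by positivity)
    have u1 : k1 * G (1 + 2) Z x ≤ (k0 + k1) * max B 0 :=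
      mul_le_mul (by linarith) hB' (G_nonneg _ _ _) (by positivity)
    have v0 := f0 Z hZ x hx
    rw [norm_iteratedFDeriv_zero, Real.norm_eq_abs] at v0
    exact ⟨v0.trans u0, (abs_dw_le (hF.1 Z hZ) [false]).trans ((f1 Z hZ x hx).trans u1),
      (abs_dw_le (hF.1 Z hZ) [true]).trans ((f1 Z hZ x hx).trans u1)⟩
  obtain ⟨D1, p1, b1⟩ := aux (ord_H11 hS hφ)
  obtain ⟨D2, p2, b2⟩ := aux (ord_H22 hS hφ)
  obtain ⟨D3, p3, b3⟩ := aux (ord_H12 hS hφ).neg
  refine ⟨D1 + D2 + D3, by positivity, fun Z hZ x hx hB F hF => ?_⟩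
  rcases hF with rfl | rfl | rfl
  · obtain ⟨q0, q1, q2⟩ := b1 Z hZ x hx hB
    exact ⟨by linarith, by linarith, by linarith⟩
  · obtain ⟨q0, q1, q2⟩ := b2 Z hZ x hx hB
    exact ⟨by linarith, by linarith, by linarith⟩
  · obtain ⟨q0, q1, q2⟩ := b3 Z hZ x hx hB
    exact ⟨by linarith, by linarith, by linarith⟩

/-- The energy inequality for one word of length `n`. -/
lemma word_energy {φ χ : P2 → ℝ} (hφ : Sm φ) (sχ : Sm χ) (hχc : HasCompactSupport χ)
    {κ r r' M c : ℝ} (hc : 0 < c) {n : ℕ} (hn : 8 ≤ n)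
    (hts : ∀ x ∈ tsupport χ, r < rsq x ∧ rsq x < r') {B : ℝ} (hB0 : 0 ≤ B) :
    ∃ K : ℝ, 0 ≤ K ∧ ∀ Z, Adm φ κ r r' M c Z → (∀ x ∈ tsupport χ, G (n - 2) Z x ≤ B) →
      ∀ w : List Bool, w.length = n →
        ∫ x, χ x ^ 2 * (d1 (dw w Z) x ^ 2 + d2 (dw w Z) x ^ 2) ≤
          K * (∫ x in tsupport χ, dw w Z x ^ 2) +
            K * ∫ x, χ x ^ 2 * (|dw w Z x| * G (n + 1) Z x) := by
  obtain ⟨D, hD0, hD⟩ := coef_bounds (B := B) (isCompact_ann r r') hφ
  obtain ⟨Ck, hCk, hk⟩ := key_eq hφ κ r r' M c hn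
  obtain ⟨C, hC, hlin⟩ := linear_energy (sχ.of_le (nat_le_top 1)) hχc (K := 4 * D ^ 2) hc
  set K' := 2 * D * (Ck * B) with hK'
  have hK'0 : 0 ≤ K' := by positivity
  refine ⟨C + C * K', by positivity, fun Z hZ hGB w hw => ?_⟩
  have hs := hZ.1
  have hA := isCompact_ann r r'
  have sP : Sm (H11 φ Z) := (ord_H11 hA hφ).1 Z hs
  have sQ : Sm (H12 φ Z) := (ord_H12 hA hφ).1 Z hs
  have sS : Sm (H22 φ Z) := (ord_H22 hA hφ).1 Z hs
  have su := sm_dw hs w
  have sT : Sm fun y => H11 φ Z y + H22 φ Z y := sP.add sS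
  have pack : ∀ x ∈ tsupport χ, x ∈ Ann r r' ∧
      (|H11 φ Z x| ≤ D ∧ |d1 (H11 φ Z) x| ≤ D ∧ |d2 (H11 φ Z) x| ≤ D) ∧
      (|H22 φ Z x| ≤ D ∧ |d1 (H22 φ Z) x| ≤ D ∧ |d2 (H22 φ Z) x| ≤ D) ∧
      (|-H12 φ Z x| ≤ D ∧ |d1 (fun y => -H12 φ Z y) x| ≤ D ∧
        |d2 (fun y => -H12 φ Z y) x| ≤ D) ∧
      (|H11 φ Z x + H22 φ Z x| ≤ 2 * D ∧ |d1 (fun y => H11 φ Z y + H22 φ Z y) x| ≤ 2 * D ∧
        |d2 (fun y => H11 φ Z y + H22 φ Z y) x| ≤ 2 * D) := by
    intro x hx
    have hxA : x ∈ Ann r r' := ⟨(hts x hx).1.le, (hts x hx).2.le⟩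
    have h3 : G 3 Z x ≤ B := (G_mono (by omega) Z x).trans (hGB x hx)
    have e1 := hD Z hs x hxA h3 (H11 φ Z) (by simp)
    have e2 := hD Z hs x hxA h3 (H22 φ Z) (by simp)
    have e3 := hD Z hs x hxA h3 (fun y => -H12 φ Z y) (by simp)
    refine ⟨hxA, e1, e2, e3, ?_, ?_, ?_⟩
    · exact (abs_add_le _ _).trans (by linarith [e1.1, e2.1])
    · rw [((HD.of_diff (sm_diff sP x)).add (HD.of_diff (sm_diff sS x))).d1]
      exact (abs_add_le _ _).trans (by linarith [e1.2.1, e2.2.1])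
    · rw [((HD.of_diff (sm_diff sP x)).add (HD.of_diff (sm_diff sS x))).d2]
      exact (abs_add_le _ _).trans (by linarith [e1.2.2, e2.2.2])
  have hcoef : ∀ x ∈ tsupport χ,
      |(H11 φ Z x + H22 φ Z x) * H22 φ Z x| ≤ 4 * D ^ 2 ∧
      |(H11 φ Z x + H22 φ Z x) * -H12 φ Z x| ≤ 4 * D ^ 2 ∧
      |(H11 φ Z x + H22 φ Z x) * H11 φ Z x| ≤ 4 * D ^ 2 ∧
      |d1 (fun y => (H11 φ Z y + H22 φ Z y) * H22 φ Z y) x| ≤ 4 * D ^ 2 ∧
      |d2 (fun y => (H11 φ Z y + H22 φ Z y) * -H12 φ Z y) x| ≤ 4 * D ^ 2 ∧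
      |d1 (fun y => (H11 φ Z y + H22 φ Z y) * -H12 φ Z y) x| ≤ 4 * D ^ 2 ∧
      |d2 (fun y => (H11 φ Z y + H22 φ Z y) * H11 φ Z y) x| ≤ 4 * D ^ 2 := by
    intro x hx
    obtain ⟨_, e1, e2, e3, e4⟩ := pack x hx
    obtain ⟨u1, u2, _⟩ := mul_bounds (T := fun y => H11 φ Z y + H22 φ Z y) sT sS e4 e2
    obtain ⟨v1, v2, v3⟩ := mul_bounds (T := fun y => H11 φ Z y + H22 φ Z y)
      (A := fun y => -H12 φ Z y) sT sQ.neg e4 e3
    obtain ⟨z1, _, z3⟩ := mul_bounds (T := fun y => H11 φ Z y + H22 φ Z y) sT sP e4 e1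
    exact ⟨u1, v1, z1, u2, v3, v2, z3⟩
  have hform : ∀ x ∈ tsupport χ, ∀ a b : ℝ,
      c * (a ^ 2 + b ^ 2) ≤ (H11 φ Z x + H22 φ Z x) * H22 φ Z x * a ^ 2
        + 2 * ((H11 φ Z x + H22 φ Z x) * -H12 φ Z x) * a * b
        + (H11 φ Z x + H22 φ Z x) * H11 φ Z x * b ^ 2 :=
    fun x hx a b => form_ge (hZ.2.2.2 x (pack x hx).1)
  have heq : ∀ x ∈ tsupport χ,
      |(H11 φ Z x + H22 φ Z x) * H22 φ Z x * d1 (d1 (dw w Z)) x
        + 2 * ((H11 φ Z x + H22 φ Z x) * -H12 φ Z x) * d1 (d2 (dw w Z)) x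
        + (H11 φ Z x + H22 φ Z x) * H11 φ Z x * d2 (d2 (dw w Z)) x| ≤ K' * G (n + 1) Z x := by
    intro x hx
    have hq := hk Z hZ w hw x (hts x hx).1 (hts x hx).2 B (hGB x hx)
    have := mul_le_mul (pack x hx).2.2.2.2.1 hq (abs_nonneg _) (by linarith)
    rw [← abs_mul] at this
    refine le_of_eq_of_le (congrArg abs ?_) (this.trans (le_of_eq ?_))
    · ring
    · rw [hK']; ring
  have he := hlin (fun x => (H11 φ Z x + H22 φ Z x) * H22 φ Z x)
    (fun x => (H11 φ Z x + H22 φ Z x) * -H12 φ Z x)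
    (fun x => (H11 φ Z x + H22 φ Z x) * H11 φ Z x) (dw w Z)
    (fun x => K' * G (n + 1) Z x)
    ((sT.mul sS).of_le (nat_le_top 1)) ((sT.mul sQ.neg).of_le (nat_le_top 1))
    ((sT.mul sP).of_le (nat_le_top 1)) (su.of_le (nat_le_top 2))
    (continuous_const.mul (cont_G hs (n + 1))) hcoef hform heq
  refine he.trans ?_
  have hU : 0 ≤ ∫ x in tsupport χ, dw w Z x ^ 2 := integral_nonneg fun x => sq_nonneg _
  have hQ : 0 ≤ ∫ x, χ x ^ 2 * (|dw w Z x| * G (n + 1) Z x) :=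
    integral_nonneg fun x => mul_nonneg (sq_nonneg _) (mul_nonneg (abs_nonneg _) (G_nonneg _ _ _))
  have e : ∫ x, χ x ^ 2 * |dw w Z x| * (K' * G (n + 1) Z x) =
      K' * ∫ x, χ x ^ 2 * (|dw w Z x| * G (n + 1) Z x) := by
    rw [← integral_const_mul]
    exact integral_congr_ae (Filter.Eventually.of_forall fun x => by ring)
  rw [e]
  have := mul_nonneg (mul_nonneg hC hK'0) hU
  have := mul_nonneg hC hQ
  linarith

lemma cut_le_integral {χ g : P2 → ℝ} {S : Set P2} (hχ : Continuous χ) (hc : HasCompactSupport χ)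
    (h1 : ∀ x, 0 ≤ χ x ∧ χ x ≤ 1) (hS : IsCompact S) (hts : tsupport χ ⊆ S) (hg : Continuous g)
    (hg0 : ∀ x, 0 ≤ g x) : ∫ x, χ x ^ 2 * g x ≤ ∫ x in S, g x := by
  rw [← integral_indicator hS.measurableSet]
  refine integral_mono (integrable_cut hχ hc hg)
    ((integrable_indicator_iff hS.measurableSet).2 (hg.continuousOn.integrableOn_compact hS))
    fun x => ?_
  by_cases hx : x ∈ S
  · rw [Set.indicator_of_mem hx]
    exact mul_le_of_le_one_left (hg0 x) (pow_le_one₀ (h1 x).1 (h1 x).2)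
  · rw [Set.indicator_of_notMem hx, image_eq_zero_of_notMem_tsupport fun hh => hx (hts hh)]
    simp

lemma G_succ_split (n : ℕ) (Z : P2 → ℝ) (x : P2) :
    G (n + 1) Z x = G n Z x + ‖iteratedFDeriv ℝ (n + 1) Z x‖ := by
  simp only [G, Finset.sum_range_succ _ (n + 1)]; ring

lemma young {u g t ε : ℝ} (hε : 0 < ε) (hu : |u| ≤ g) (ht : 0 ≤ t) :
    |u| * (g + t) ≤ (1 + 1 / (4 * ε)) * g ^ 2 + ε * t ^ 2 := by
  have hg : 0 ≤ g := (abs_nonneg _).trans hu
  have h1 := mul_le_mul_of_nonneg_right hu (add_nonneg hg ht)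
  have e : 1 / (4 * ε) * g ^ 2 + ε * t ^ 2 = (g ^ 2 + 4 * ε ^ 2 * t ^ 2) / (4 * ε) := by
    field_simp
  have hy : g * t ≤ 1 / (4 * ε) * g ^ 2 + ε * t ^ 2 := by
    rw [e, le_div_iff₀ (by positivity)]
    linarith [sq_nonneg (g - 2 * ε * t)]
  linarith

lemma step {φ : P2 → ℝ} (hφ : Sm φ) {κ r r' M c : ℝ} (hc : 0 < c) {n : ℕ} (hn : 8 ≤ n)
    (h : Bdd φ κ r r' M c n) : Bdd φ κ r r' M c (n + 1) := by
  intro a a' ha ha'
  have p1 : r < (r + a) / 2 := by linarith
  have p2 : (r + a) / 2 < a := by linarith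
  have p3 : a' < (a' + r') / 2 := by linarith
  have p4 : (a' + r') / 2 < r' := by linarith
  set χ := ring ((r + a) / 2) a a' ((a' + r') / 2) with hχ
  have sχ : Sm χ := sm_ring _ _ _ _
  have hχc : HasCompactSupport χ := hcs_ring p2 p3
  set S := Ann ((r + a) / 2) ((a' + r') / 2) with hSdef
  have hS : IsCompact S := isCompact_ann _ _
  have hts : tsupport χ ⊆ S := tsupport_ring p2 p3
  have h1 : ∀ x, 0 ≤ χ x ∧ χ x ≤ 1 := ring_mem _ _ _ _
  obtain ⟨J, hJ, hJb⟩ := h _ _ p1 p4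
  obtain ⟨B, hB0, hB⟩ := sup_bound (m := n - 2) (by omega) h p1 p4
  obtain ⟨K, hK, hwe⟩ := word_energy (κ := κ) (r := r) (r' := r') (M := M) hφ sχ hχc hc hn
    (fun x hx => ⟨p1.trans_le (hts hx).1, (hts hx).2.trans_lt p4⟩) hB0
  set P := (2 : ℝ) * 4 ^ n with hP
  have hP0 : 0 < P := by positivity
  set ε := 1 / (2 * P * (K + 1)) with hε
  have hε0 : 0 < ε := by positivity
  set E0 := K * J + K * ((1 + 1 / (4 * ε)) * J) with hE0
  refine ⟨2 * J + 2 * (2 * P * E0), by positivity, fun Z hZ => ?_⟩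
  have hs := hZ.1
  set I := ∫ x, χ x ^ 2 * ‖iteratedFDeriv ℝ (n + 1) Z x‖ ^ 2 with hI
  have hI0 : 0 ≤ I := integral_nonneg fun x => by positivity
  have cG : Continuous fun x => G n Z x ^ 2 := (cont_G hs n).pow 2
  have cI : Continuous fun x => ‖iteratedFDeriv ℝ (n + 1) Z x‖ ^ 2 := (cont_iter hs (n + 1)).pow 2
  have jG : Integrable fun x => χ x ^ 2 * G n Z x ^ 2 := integrable_cut sχ.continuous hχc cG
  have jI : Integrable fun x => χ x ^ 2 * ‖iteratedFDeriv ℝ (n + 1) Z x‖ ^ 2 :=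
    integrable_cut sχ.continuous hχc cI
  have hJ' : ∫ x, χ x ^ 2 * G n Z x ^ 2 ≤ J :=
    (cut_le_integral sχ.continuous hχc h1 hS hts cG fun x => sq_nonneg _).trans (hJb Z hZ)
  have hw : ∀ w : List Bool, w.length = n →
      ∫ x, χ x ^ 2 * (d1 (dw w Z) x ^ 2 + d2 (dw w Z) x ^ 2) ≤ E0 + K * ε * I := by
    intro w hw
    have su := sm_dw hs w
    have hu : ∀ x, |dw w Z x| ≤ G n Z x := fun x =>
      (abs_dw_le hs w).trans (hw ▸ iter_le_G le_rfl Z x)
    refine (hwe Z hZ (fun x hx => hB Z hZ x (hts hx)) w hw).trans ?_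
    have hUJ : ∫ x in tsupport χ, dw w Z x ^ 2 ≤ J := by
      refine le_trans ?_ (hJb Z hZ)
      refine (setIntegral_mono_on ((su.continuous.pow 2).continuousOn.integrableOn_compact hχc)
        (cG.continuousOn.integrableOn_compact hχc) hχc.measurableSet
        fun x _ => sq_le_sq' (abs_le.1 (hu x)).1 (abs_le.1 (hu x)).2).trans ?_
      exact setIntegral_mono_set (cG.continuousOn.integrableOn_compact hS)
        (Filter.Eventually.of_forall fun x => sq_nonneg _) hts.eventuallyLE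
    have hQ : ∫ x, χ x ^ 2 * (|dw w Z x| * G (n + 1) Z x)
        ≤ (1 + 1 / (4 * ε)) * J + ε * I := by
      calc ∫ x, χ x ^ 2 * (|dw w Z x| * G (n + 1) Z x)
          ≤ ∫ x, ((1 + 1 / (4 * ε)) * (χ x ^ 2 * G n Z x ^ 2)
              + ε * (χ x ^ 2 * ‖iteratedFDeriv ℝ (n + 1) Z x‖ ^ 2)) := by
            refine integral_mono (integrable_cut sχ.continuous hχc
              (su.continuous.abs.mul (cont_G hs (n + 1)))) ((jG.const_mul _).add (jI.const_mul _))
              fun x => ?_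
            have h2 := young hε0 (hu x) (norm_nonneg (iteratedFDeriv ℝ (n + 1) Z x))
            rw [← G_succ_split] at h2
            have := mul_le_mul_of_nonneg_left h2 (sq_nonneg (χ x))
            linarith
        _ ≤ _ := by
            rw [integral_add (jG.const_mul _) (jI.const_mul _), integral_const_mul,
              integral_const_mul]
            exact add_le_add (mul_le_mul_of_nonneg_left hJ' (by positivity)) le_rfl
    have := mul_le_mul_of_nonneg_left hUJ hK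
    have := mul_le_mul_of_nonneg_left hQ hK
    linarith
  have hIb := integral_iter_le sχ.continuous hχc n Z hs _ hw
  rw [← hI, ← hP] at hIb
  have habs : P * (K * ε) ≤ 1 / 2 := by
    rw [hε, mul_one_div, mul_div, div_le_iff₀ (by positivity)]
    linarith
  have hI2 : I ≤ 2 * P * E0 := by
    have := mul_le_mul_of_nonneg_right habs hI0
    linarith
  have hA' := isCompact_ann a a'
  have sub : Ann a a' ⊆ S := ann_mono p2.le p3.le
  calc ∫ x in Ann a a', G (n + 1) Z x ^ 2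
      ≤ ∫ x in Ann a a', (2 * G n Z x ^ 2 +
          2 * (χ x ^ 2 * ‖iteratedFDeriv ℝ (n + 1) Z x‖ ^ 2)) := by
        refine setIntegral_mono_on (((cont_G hs _).pow 2).continuousOn.integrableOn_compact hA')
          (((continuous_const.mul cG).add (continuous_const.mul
            ((sχ.continuous.pow 2).mul cI))).continuousOn.integrableOn_compact hA')
          hA'.measurableSet fun x hx => ?_
        rw [G_succ_split, hχ, ring_one p2 p3 hx]
        linarith [sq_nonneg (G n Z x - ‖iteratedFDeriv ℝ (n + 1) Z x‖)]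
    _ ≤ 2 * J + 2 * (2 * P * E0) := by
        rw [integral_add (f := fun x => 2 * G n Z x ^ 2)
          ((continuous_const.mul cG).continuousOn.integrableOn_compact hA')
          (jI.const_mul 2).integrableOn, integral_const_mul, integral_const_mul]
        have q1 : ∫ x in Ann a a', G n Z x ^ 2 ≤ J :=
          (setIntegral_mono_set (cG.continuousOn.integrableOn_compact hS)
            (Filter.Eventually.of_forall fun x => sq_nonneg _) sub.eventuallyLE).trans (hJb Z hZ)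
        have q2 : ∫ x in Ann a a', χ x ^ 2 * ‖iteratedFDeriv ℝ (n + 1) Z x‖ ^ 2 ≤ I :=
          setIntegral_le_integral jI (Filter.Eventually.of_forall fun x => by positivity)
        linarith

theorem bdd_all {φ : P2 → ℝ} (hφ : Sm φ) (κ r r' M : ℝ) {c : ℝ} (hc : 0 < c) {n : ℕ}
    (hn : 8 ≤ n) : Bdd φ κ r r' M c n := by
  induction n, hn using Nat.le_induction with
  | base => exact base φ κ r r' M c
  | succ k hk ih => exact step hφ hc hk ih

/-- Seat B of P229. -/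
theorem seaRegularity : SeaRegularity := by
  intro φ κ r r' s s' M c N hφ hc _ hrs hss' hs'r' hr'
  obtain ⟨B, _, hB⟩ := sup_bound (m := N) (n := N + 10) (by omega)
    (bdd_all hφ κ r r' M hc (n := N + 10) (by omega)) hrs hs'r'
  refine ⟨B, fun Z hZ hM hD hdet x hx i hi => ?_⟩
  set t1 := (2 * r' + 2) / 3
  set t2 := (r' + 4) / 3
  have q1 : r' < t1 := by simp only [t1]; linarith
  have q2 : t1 < t2 := by simp only [t1, t2]; linarith
  have q3 : t2 < 2 := by simp only [t2]; linarith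
  set ρ : P2 → ℝ := fun y => Real.smoothTransition ((t2 - rsq y) / (t2 - t1))
  have sρ : Sm ρ :=
    Real.smoothTransition.contDiff.comp ((contDiff_const.sub sm_rsq).div_const _)
  set Z' : P2 → ℝ := fun y => ρ y * Z y
  have sZ' : Sm Z' := by
    refine contDiff_iff_contDiffAt.2 fun y => ?_
    by_cases hy : rsq y < 2
    · exact (sρ.contDiffAt.mul (hZ.contDiffAt
        ((isOpen_lt sm_rsq.continuous continuous_const).mem_nhds hy)))
    · refine (contDiffAt_const (c := (0 : ℝ))).congr_of_eventuallyEq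
        (Filter.eventuallyEq_of_mem ((isOpen_lt continuous_const sm_rsq.continuous).mem_nhds
          (show t2 < rsq y from q3.trans_le (not_lt.1 hy))) fun z hz => ?_)
      have : ρ z = 0 := Real.smoothTransition.zero_of_nonpos
        (div_nonpos_of_nonpos_of_nonneg (by linarith [hz.out]) (by linarith))
      simp [Z', this]
  have heq : ∀ y ∈ Ann r r', Z' =ᶠ[𝓝 y] Z := fun y hy =>
    Filter.eventuallyEq_of_mem ((isOpen_lt sm_rsq.continuous continuous_const).mem_nhds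
      (show rsq y < t1 from hy.2.trans_lt q1)) fun z hz => by
      have : ρ z = 1 := Real.smoothTransition.one_of_one_le (by
        rw [le_div_iff₀ (by linarith)]; linarith [hz.out])
      simp [Z', this]
  have hH : ∀ y ∈ Ann r r', H11 φ Z' y = H11 φ Z y ∧ H12 φ Z' y = H12 φ Z y ∧
      H22 φ Z' y = H22 φ Z y ∧ gradSq Z' y = gradSq Z y := fun y hy => by
    have e := heq y hy
    have e1 : d1 Z' =ᶠ[𝓝 y] d1 Z := (e.fderiv (𝕜 := ℝ)).mono fun z hz => by simp [d1, hz]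
    have e2 : d2 Z' =ᶠ[𝓝 y] d2 Z := (e.fderiv (𝕜 := ℝ)).mono fun z hz => by simp [d2, hz]
    simp only [H11, H12, H22, gradSq, e1.eq_of_nhds, e2.eq_of_nhds]
    have f1 := e1.fderiv_eq (𝕜 := ℝ)
    have f2 := e2.fderiv_eq (𝕜 := ℝ)
    simp only [d1, d2] at f1 f2 ⊢
    simp [f1, f2]
  have hadm : Adm φ κ r r' M c Z' := by
    refine ⟨sZ', fun y hy j hj => ?_, fun y hy => ?_, fun y hy => ?_⟩
    · rw [((heq y hy).iteratedFDeriv ℝ j).eq_of_nhds]; exact hM y hy j hj
    · obtain ⟨h1, h2, h3, h4⟩ := hH y hy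
      have := hD y hy
      simp only [Darboux, h1, h2, h3, h4] at this ⊢
      exact this
    · obtain ⟨h1, h2, h3, _⟩ := hH y hy
      rw [h1, h2, h3]; exact hdet y hy
  have hxA : x ∈ Ann r r' := ann_mono hrs.le hs'r'.le hx
  rw [← ((heq x hxA).iteratedFDeriv ℝ i).eq_of_nhds]
  exact (iter_le_G hi Z' x).trans (hB Z' hadm x hx)

end Vale.Agent.P229.Sea
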